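import Vale.Agent.P338.H932.Shear
import Vale.Agent.P338.Defs

/-!
# Padding and unpadding: list level

`w` holds (at its beginning) an `n₀ × n₀` matrix row by row; `padL n₀ n w` is the `n × n` matrix
obtained by adding zeros; `unpadL n₀ n X` are the first `n₀` bits of the first `n₀` rows of `X`.
-/

namespace Vale.Agent.P338.H51

open Vale.Agent.P338 Vale.Agent.P338.H932

/-- the padded matrix -/
def padL (n₀ n : ℕ) (w : List Bool) : List Bool :=
  (cat n₀ fun i => (w.drop (i * n₀)).take n₀ ++ zer (n - n₀)) ++ cat (n - n₀) fun _ => zer n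

/-- the entries of the padded matrix -/
def padM (n₀ : ℕ) (w : List Bool) (i j : ℕ) : Bool :=
  if i < n₀ ∧ j < n₀ then w.getD (i * n₀ + j) false else false

/-- first `n₀` bits of the first `n₀` rows of `X` -/
def unpadL (n₀ n : ℕ) (X : List Bool) : List Bool := cat n₀ fun i => (X.drop (i * n)).take n₀

theorem cat_singleton (n : ℕ) (f : ℕ → Bool) :
    (cat n fun j => [f j]) = (List.range n).map f := by
  induction n with
  | zero => rfl
  | succ n ih => rw [cat_succ, ih, List.range_succ, List.map_append]; rfl

theorem cat_false (n : ℕ) : (cat n fun _ => [false]) = zer n := by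
  rw [cat_singleton]
  simp [zer]

theorem take_eq_cat (l : List Bool) (n : ℕ) (h : n ≤ l.length) :
    l.take n = cat n fun j => [l.getD j false] := by
  rw [cat_singleton]
  apply List.ext_getElem
  · simp [h]
  · intro i h1 h2
    simp only [List.length_take, lt_inf_iff] at h1
    simp [h1.2]

theorem padL_eq_matL {n₀ n : ℕ} (h : n₀ ≤ n) {w : List Bool} (hw : n₀ * n₀ ≤ w.length) :
    padL n₀ n w = matL n (padM n₀ w) := by
  obtain ⟨d, rfl⟩ := Nat.exists_eq_add_of_le h
  rw [padL, matL, cat_add n₀ d, Nat.add_sub_cancel_left]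
  congr 1
  · apply cat_congr
    intro i hi
    have h1 : n₀ ≤ (w.drop (i * n₀)).length := by
      rw [List.length_drop]
      have : i * n₀ + n₀ ≤ n₀ * n₀ := by nlinarith
      omega
    rw [take_eq_cat _ _ h1, cat_add n₀ d, ← cat_false]
    congr 1
    · apply cat_congr
      intro j hj
      simp [padM, hi, hj, List.getD_eq_getElem?_getD, List.getElem?_drop]
    · apply cat_congr
      intro j hj
      simp [padM]
  · apply cat_congr
    intro i hi
    rw [← cat_false]
    apply cat_congr
    intro j hj
    simp [padM]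

theorem cat_drop_take {n p : ℕ} {f : ℕ → List Bool} (h : ∀ i, i < n → (f i).length = p) {i : ℕ}
    (hi : i < n) : ((cat n f).drop (i * p)).take p = f i := by
  obtain ⟨m, rfl⟩ := Nat.exists_eq_add_of_lt hi
  rw [show i + m + 1 = i + (m + 1) by omega, cat_add, cat_succ',
    List.drop_left' (cat_length (fun j hj => h j (by omega)))]
  exact List.take_left' (h _ (by omega))

theorem unpadL_matL {n₀ n : ℕ} (h : n₀ ≤ n) (Y : ℕ → ℕ → Bool) :
    unpadL n₀ n (matL n Y) = cat n₀ fun i => cat n₀ fun j => [Y i j] := by
  apply cat_congr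
  intro i hi
  have h1 := cat_drop_take (n := n) (p := n) (f := fun i => cat n fun s => [Y i s])
    (fun j _ => by rw [cat_length (p := 1) (fun _ _ => rfl), Nat.mul_one]) (i := i) (by omega)
  rw [matL]
  have h2 : ((cat n fun i => cat n fun s => [Y i s]).drop (i * n)).take n₀
      = (((cat n fun i => cat n fun s => [Y i s]).drop (i * n)).take n).take n₀ := by
    rw [List.take_take, Nat.min_eq_left h]
  rw [h2, h1]
  obtain ⟨d, rfl⟩ := Nat.exists_eq_add_of_le h
  rw [cat_add]
  exact List.take_left' (by rw [cat_length (p := 1) (fun _ _ => rfl), Nat.mul_one])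

theorem ofFn_eq_cat (n : ℕ) (g : ℕ → Bool) :
    (List.ofFn fun p : Fin n => g p) = cat n fun p => [g p] := by
  rw [cat_singleton]
  apply List.ext_getElem
  · simp
  · intro i h1 h2
    simp

theorem transposeWord_eq_cat (n : ℕ) (w : List Bool) :
    transposeWord n w = cat n fun i => cat n fun j => [w.getD (j * n + i) false] := by
  rw [transposeWord, ofFn_eq_cat (n * n) (fun p => w.getD (p % n * n + p / n) false), cat_mul]
  apply cat_congr
  intro i hi
  apply cat_congr
  intro j hj
  have h1 : (i * n + j) % n = j := by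
    rw [Nat.add_comm, Nat.add_mul_mod_self_right, Nat.mod_eq_of_lt hj]
  have h2 : (i * n + j) / n = i := by
    rw [Nat.add_comm, Nat.add_mul_div_right _ _ (by omega), Nat.div_eq_of_lt hj, Nat.zero_add]
  rw [h1, h2]

/-- Unpadding the transposed padded matrix gives the transposed matrix. -/
theorem unpadL_transpose {n₀ n : ℕ} (h : n₀ ≤ n) (w : List Bool) {Z : ℕ → ℕ → Bool}
    (hZ : ∀ i j, i < n → j < n → Z j i = padM n₀ w i j) :
    unpadL n₀ n (matL n Z) = transposeWord n₀ w := by
  rw [unpadL_matL h, transposeWord_eq_cat]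
  apply cat_congr
  intro i hi
  apply cat_congr
  intro j hj
  rw [hZ j i (by omega) (by omega)]
  simp [padM, hi, hj]

end Vale.Agent.P338.H51
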