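import Vale.Agent.P338.H763.Lib
import Vale.Agent.P338.H51.PadList

/-!
# Padding and unpadding: programs

Own register type `PR` (to be renamed into the global registers by `Prog.emb` or `Prog.ren`).
-/

namespace Vale.Agent.P338

open Function (update)

namespace Runs

variable {R Γ : Type} [DecidableEq R] {s s' : Store R Γ} {p : Prog R Γ} {r q src dst : R} {c n : ℕ}
  {a b : Γ} {u v : List Γ}

/-- For loop, the contents of the ruler `r` and of the scratch register `q` being explicit
arguments of the family of states. -/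
theorem forR_fam (hrq : r ≠ q) (F : ℕ → List Γ → List Γ → Store R Γ)
    (hF : ∀ i x y x' y', update (update (F i x y) r x') q y' = F i x' y')
    (c : ℕ) (h : ∀ i < n, Runs p (F i (List.replicate (n - 1 - i) a) (List.replicate (i + 1) a))
      (F (i + 1) (List.replicate (n - 1 - i) a) (List.replicate (i + 1) a)) c) :
    Runs (.forR r q p) (F 0 (List.replicate n a) []) (F n (List.replicate n a) [])
      (n * (c + 4) + 2) := by
  have h1 := forR (p := p) hrq (a := a) (n := n) (fun i => F i (List.replicate n a) []) c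
    (by
      have := congrFun (hF 0 [] [] (List.replicate n a) []) r
      rw [Function.update_of_ne hrq, Function.update_self] at this
      exact this.symm)
    (by
      have := congrFun (hF 0 [] [] (List.replicate n a) []) q
      rw [Function.update_self] at this
      exact this.symm)
    (by
      intro i hi
      simp only [hF]
      exact h i hi)
  simpa only [hF] using h1

/-! Versions where the final store is given by an equation, for concrete registers. -/

theorem flip_eq (hs' : update (update s r []) q ((s r).reverse ++ s q) = s')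
    (hc : 2 * (s r).length + 1 ≤ c) (hrq : r ≠ q) : Runs (.flip r q) s s' c :=
  (Runs.flip hrq s).conv hs' hc

theorem clear_eq (hs' : update s r [] = s') (hc : 2 * (s r).length + 1 ≤ c) :
    Runs (.clear r) s s' c :=
  (Runs.clear r s).conv hs' hc

theorem copy_eq (hq : s q = []) (hs' : update s dst (s r ++ s dst) = s')
    (hc : 4 * (s r).length + 2 ≤ c) (hrq : r ≠ q) (hrd : r ≠ dst)
    (hqd : q ≠ dst) : Runs (.copy r q dst) s s' c :=
  (Runs.copy hrq hrd hqd hq).conv hs' hc

theorem fill_eq (n : ℕ) (hr : s r = List.replicate n a) (hq : s q = [])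
    (hs' : update s dst (List.replicate n b ++ s dst) = s') (hc : 5 * n + 2 ≤ c)
    (hrq : r ≠ q) (hrd : r ≠ dst) (hqd : q ≠ dst) :
    Runs (.fill r q dst b) s s' c :=
  (Runs.fill hrq hrd hqd hr hq).conv hs' hc

theorem xfer_eq (n : ℕ) (u v : List Γ) (hr : s r = List.replicate n a) (hq : s q = [])
    (hs : s src = u ++ v) (hu : u.length = n)
    (hs' : update (update s src v) dst (u.reverse ++ s dst) = s') (hc : 5 * n + 2 ≤ c)
    (hrq : r ≠ q) (hrs : r ≠ src) (hrd : r ≠ dst)
    (hqs : q ≠ src) (hqd : q ≠ dst) (hsd : src ≠ dst) :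
    Runs (.xfer r q src dst) s s' c :=
  (Runs.xfer hrq hrs hrd hqs hqd hsd hr hq hs hu).conv hs' hc

theorem skip_eq (n : ℕ) (u v : List Γ) (hr : s r = List.replicate n a) (hq : s q = [])
    (hs : s src = u ++ v) (hu : u.length = n)
    (hs' : update s src v = s') (hc : 5 * n + 2 ≤ c)
    (hrq : r ≠ q) (hrs : r ≠ src) (hqs : q ≠ src) :
    Runs (.skip r q src) s s' c :=
  (Runs.skip hrq hrs hqs hr hq hs hu).conv hs' hc

end Runs

namespace H51

open Vale.Agent.P338.H932

/-- registers of the padding programs -/
inductive PR : Type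
  | src | dst | Y | Z | n | n0 | D | A | q | q'
  deriving DecidableEq

/-- the store with the given contents -/
def pst (src dst Y Z n n0 D A q q' : List Bool) : Store PR Bool
  | .src => src
  | .dst => dst
  | .Y => Y
  | .Z => Z
  | .n => n
  | .n0 => n0
  | .D => D
  | .A => A
  | .q => q
  | .q' => q'

/-- Padding. -/
def padProg : Prog PR Bool :=
  .seq (.copy .n0 .q .A) <|
  .seq (.flip .src .Y) <|
  .seq (.forR .n0 .q (.seq (.xfer .A .q' .Y .Z) (.fill .D .q' .Z false))) <|
  .seq (.forR .D .q (.fill .n .q' .Z false)) <|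
  .seq (.clear .Y) <| .seq (.clear .A) (.flip .Z .dst)

/-- Unpadding. -/
def unpadProg : Prog PR Bool :=
  .seq (.copy .n0 .q .A) <|
  .seq (.forR .n0 .q (.seq (.xfer .A .q' .src .Z) (.skip .D .q' .src))) <|
  .seq (.clear .src) <| .seq (.clear .A) (.flip .Z .dst)

theorem zer_eq (n : ℕ) : List.replicate n false = zer n := rfl

theorem drop_split (l : List Bool) (p k : ℕ) :
    l.drop p = (l.drop p).take k ++ l.drop (p + k) := by
  rw [← List.drop_drop, List.take_append_drop]

theorem padProg_runs {n₀ n : ℕ} (h : n₀ ≤ n) {w : List Bool} (hw : n₀ * n₀ ≤ w.length) :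
    Runs padProg (pst w.reverse [] [] [] (zer n) (zer n₀) (zer (n - n₀)) [] [] [])
      (pst [] (padL n₀ n w) [] [] (zer n) (zer n₀) (zer (n - n₀)) [] [] [])
      (4 * w.length + 30 * (n * n) + 10) := by
  set d := n - n₀ with hd
  have e1 : n₀ + d = n := by omega
  have e2 : n ≤ n * n := by nlinarith
  set f : ℕ → List Bool := fun i => (w.drop (i * n₀)).take n₀ ++ zer d with hf
  have hP : padL n₀ n w = cat n₀ f ++ cat d fun _ => zer n := rfl
  have hlen : (padL n₀ n w).length = n * n := by
    rw [padL_eq_matL h hw, matL_length]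
  -- 1. copy
  have h1 : Runs (.copy .n0 .q .A) (pst w.reverse [] [] [] (zer n) (zer n₀) (zer d) [] [] [])
      (pst w.reverse [] [] [] (zer n) (zer n₀) (zer d) (zer n₀) [] []) (4 * n₀ + 2) :=
    Runs.copy_eq rfl (by funext r; cases r <;> simp [pst, update]) (by simp [pst, zer]) (by decide) (by decide) (by decide)
  -- 2. flip
  have h2 : Runs (.flip .src .Y) (pst w.reverse [] [] [] (zer n) (zer n₀) (zer d) (zer n₀) [] [])
      (pst [] [] w [] (zer n) (zer n₀) (zer d) (zer n₀) [] []) (2 * w.length + 1) :=
    Runs.flip_eq (by funext r; cases r <;> simp [pst, update]) (by simp [pst]) (by decide)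
  -- 3. the first rows
  have h3 : Runs (.forR .n0 .q (.seq (.xfer .A .q' .Y .Z) (.fill .D .q' .Z false)))
      (pst [] [] w [] (zer n) (zer n₀) (zer d) (zer n₀) [] [])
      (pst [] [] (w.drop (n₀ * n₀)) (cat n₀ f).reverse (zer n) (zer n₀) (zer d) (zer n₀) [] [])
      (n₀ * ((5 * n₀ + 2) + (5 * d + 2) + 4) + 2) := by
    have := Runs.forR_fam (r := PR.n0) (q := PR.q) (by decide)
      (p := (.seq (.xfer .A .q' .Y .Z) (.fill .D .q' .Z false) : Prog PR Bool))
      (a := false) (n := n₀)
      (fun i x y => pst [] [] (w.drop (i * n₀)) (cat i f).reverse (zer n) x (zer d) (zer n₀) y [])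
      (by intro i x y x' y'; funext r; cases r <;> simp [pst, update])
      ((5 * n₀ + 2) + (5 * d + 2))
      (by
        intro i hi
        have e1 : i * n₀ + n₀ ≤ n₀ * n₀ := by nlinarith
        refine Runs.seq (s₁ := pst [] [] (w.drop ((i + 1) * n₀))
          (((w.drop (i * n₀)).take n₀).reverse ++ (cat i f).reverse) (zer n)
          (List.replicate (n₀ - 1 - i) false) (zer d) (zer n₀) (List.replicate (i + 1) false) [])
          ?_ ?_
        · refine Runs.xfer_eq n₀ ((w.drop (i * n₀)).take n₀) (w.drop ((i + 1) * n₀)) rfl rfl ?_ ?_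
            ?_ le_rfl (by decide) (by decide) (by decide) (by decide) (by decide) (by decide)
          · show w.drop (i * n₀) = _
            rw [Nat.succ_mul]
            exact drop_split _ _ _
          · simp; omega
          · funext r; cases r <;> simp [pst, update]
        · refine Runs.fill_eq d rfl rfl ?_ le_rfl (by decide) (by decide) (by decide)
          funext r; cases r <;> simp [pst, update, cat_succ, hf, zer])
    simpa [zer_eq] using this
  -- 4. the last rows
  have h4 : Runs (.forR .D .q (.fill .n .q' .Z false))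
      (pst [] [] (w.drop (n₀ * n₀)) (cat n₀ f).reverse (zer n) (zer n₀) (zer d) (zer n₀) [] [])
      (pst [] [] (w.drop (n₀ * n₀)) (padL n₀ n w).reverse (zer n) (zer n₀) (zer d) (zer n₀) [] [])
      (d * ((5 * n + 2) + 4) + 2) := by
    have := Runs.forR_fam (r := PR.D) (q := PR.q) (by decide)
      (p := (.fill .n .q' .Z false : Prog PR Bool)) (a := false) (n := d)
      (fun i x y => pst [] [] (w.drop (n₀ * n₀)) ((cat n₀ f) ++ (cat i fun _ => zer n)).reverse
        (zer n) (zer n₀) x (zer n₀) y [])
      (by intro i x y x' y'; funext r; cases r <;> simp [pst, update])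
      (5 * n + 2)
      (by
        intro i hi
        refine Runs.fill_eq n rfl rfl ?_ le_rfl (by decide) (by decide) (by decide)
        funext r; cases r <;> simp [pst, update, cat_succ, zer])
    rw [hP]
    simpa only [cat_zero, List.append_nil, zer_eq] using this
  -- 5. cleaning
  have h5 : Runs (.clear .Y) (pst [] [] (w.drop (n₀ * n₀)) (padL n₀ n w).reverse (zer n) (zer n₀)
    (zer d) (zer n₀) [] []) (pst [] [] [] (padL n₀ n w).reverse (zer n) (zer n₀)
    (zer d) (zer n₀) [] []) (2 * w.length + 1) :=
    Runs.clear_eq (by funext r; cases r <;> simp [pst, update]) (by simp [pst])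
  have h6 : Runs (.clear .A) (pst [] [] [] (padL n₀ n w).reverse (zer n) (zer n₀)
    (zer d) (zer n₀) [] []) (pst [] [] [] (padL n₀ n w).reverse (zer n) (zer n₀)
    (zer d) [] [] []) (2 * n₀ + 1) :=
    Runs.clear_eq (by funext r; cases r <;> simp [pst, update]) (by simp [pst, zer])
  have h7 : Runs (.flip .Z .dst) (pst [] [] [] (padL n₀ n w).reverse (zer n) (zer n₀)
    (zer d) [] [] []) (pst [] (padL n₀ n w) [] [] (zer n) (zer n₀) (zer d) [] [] [])
      (2 * (n * n) + 1) :=
    Runs.flip_eq (by funext r; cases r <;> simp [pst, update]) (by simp [pst, hlen]) (by decide)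
  refine (h1.seq (h2.seq (h3.seq (h4.seq (h5.seq (h6.seq h7)))))).weaken ?_
  have e3 : n₀ * (5 * n₀ + 2 + (5 * d + 2) + 4) + d * (5 * n + 2 + 4) ≤ n * (5 * n + 8) := by
    rw [← e1]; nlinarith
  nlinarith

theorem unpadProg_runs {n₀ n : ℕ} (h : n₀ ≤ n) {X : List Bool} (hX : X.length = n * n) :
    Runs unpadProg (pst X [] [] [] (zer n) (zer n₀) (zer (n - n₀)) [] [] [])
      (pst [] (unpadL n₀ n X) [] [] (zer n) (zer n₀) (zer (n - n₀)) [] [] [])
      (30 * (n * n) + 10) := by
  set d := n - n₀ with hd
  have e1 : n₀ + d = n := by omega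
  have e2 : n ≤ n * n := by nlinarith
  set f : ℕ → List Bool := fun i => (X.drop (i * n)).take n₀ with hf
  have hlen : (cat n₀ f).length ≤ n * n := by
    rw [cat_length (p := n₀)]
    · nlinarith
    · intro i hi
      have e3 : i * n + n ≤ n * n := by nlinarith
      simp only [hf, List.length_take, List.length_drop, hX]
      omega
  -- 1. copy
  have h1 : Runs (.copy .n0 .q .A) (pst X [] [] [] (zer n) (zer n₀) (zer d) [] [] [])
      (pst X [] [] [] (zer n) (zer n₀) (zer d) (zer n₀) [] []) (4 * n₀ + 2) :=
    Runs.copy_eq rfl (by funext r; cases r <;> simp [pst, update]) (by simp [pst, zer]) (by decide) (by decide) (by decide)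
  -- 2. the rows
  have h3 : Runs (.forR .n0 .q (.seq (.xfer .A .q' .src .Z) (.skip .D .q' .src)))
      (pst X [] [] [] (zer n) (zer n₀) (zer d) (zer n₀) [] [])
      (pst (X.drop (n₀ * n)) [] [] (cat n₀ f).reverse (zer n) (zer n₀) (zer d) (zer n₀) [] [])
      (n₀ * ((5 * n₀ + 2) + (5 * d + 2) + 4) + 2) := by
    have := Runs.forR_fam (r := PR.n0) (q := PR.q) (by decide)
      (p := (.seq (.xfer .A .q' .src .Z) (.skip .D .q' .src) : Prog PR Bool))
      (a := false) (n := n₀)
      (fun i x y => pst (X.drop (i * n)) [] [] (cat i f).reverse (zer n) x (zer d) (zer n₀) y [])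
      (by intro i x y x' y'; funext r; cases r <;> simp [pst, update])
      ((5 * n₀ + 2) + (5 * d + 2))
      (by
        intro i hi
        have e3 : i * n + n ≤ n * n := by nlinarith
        refine Runs.seq (s₁ := pst (X.drop (i * n + n₀)) [] []
          (((X.drop (i * n)).take n₀).reverse ++ (cat i f).reverse) (zer n)
          (List.replicate (n₀ - 1 - i) false) (zer d) (zer n₀) (List.replicate (i + 1) false) [])
          ?_ ?_
        · refine Runs.xfer_eq n₀ ((X.drop (i * n)).take n₀) (X.drop (i * n + n₀)) rfl rfl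
            (drop_split _ _ _) ?_ ?_ le_rfl (by decide) (by decide) (by decide) (by decide) (by decide) (by decide)
          · simp; omega
          · funext r; cases r <;> simp [pst, update]
        · refine Runs.skip_eq d ((X.drop (i * n + n₀)).take d) (X.drop (i * n + n₀ + d)) rfl rfl
            (drop_split _ _ _) ?_ ?_ le_rfl (by decide) (by decide) (by decide)
          · simp; omega
          · have e4 : i * n + n₀ + d = (i + 1) * n := by rw [Nat.succ_mul]; omega
            rw [e4]
            funext r; cases r <;> simp [pst, update, cat_succ, hf])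
    simpa [zer_eq] using this
  have h5 : Runs (.clear .src) (pst (X.drop (n₀ * n)) [] [] (cat n₀ f).reverse (zer n) (zer n₀)
    (zer d) (zer n₀) [] []) (pst [] [] [] (cat n₀ f).reverse (zer n) (zer n₀)
    (zer d) (zer n₀) [] []) (2 * (n * n) + 1) :=
    Runs.clear_eq (by funext r; cases r <;> simp [pst, update]) (by simp [pst, hX])
  have h6 : Runs (.clear .A) (pst [] [] [] (cat n₀ f).reverse (zer n) (zer n₀)
    (zer d) (zer n₀) [] []) (pst [] [] [] (cat n₀ f).reverse (zer n) (zer n₀)
    (zer d) [] [] []) (2 * n₀ + 1) :=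
    Runs.clear_eq (by funext r; cases r <;> simp [pst, update]) (by simp [pst, zer])
  have h7 : Runs (.flip .Z .dst) (pst [] [] [] (cat n₀ f).reverse (zer n) (zer n₀)
    (zer d) [] [] []) (pst [] (cat n₀ f) [] [] (zer n) (zer n₀) (zer d) [] [] [])
      (2 * (n * n) + 1) :=
    Runs.flip_eq (by funext r; cases r <;> simp [pst, update])
      (by simp only [pst, List.length_reverse]; omega) (by decide)
  refine (h1.seq (h3.seq (h5.seq (h6.seq h7)))).weaken ?_
  have e3 : n₀ * (5 * n₀ + 2 + (5 * d + 2) + 4) ≤ n * (5 * n + 8) := by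
    rw [← e1]; nlinarith
  nlinarith

end H51

end Vale.Agent.P338
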