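import Vale.Agent.P338.H763.LiftLib
import Vale.Agent.P338.H51.Pad

/-!
# Stage 2: the registers of the main program

All procedures are written over their own small register types and are brought here by
`Prog.ren e` (base programs) or `Prog.ren (Sum.map e id)` (programs with inner calls),
`e` an injective map.  `DV` collects the contents of the named registers; the temporaries
`t i` are empty between the stages.
-/

namespace Vale.Agent.P338

open Function (update)

/-- The registers of the stage 2 program. -/
inductive RD : Type
  /- interfaces: input, output, data, operands and product of the big call -/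
  | inp | outp | X | cx | cy | cz
  /- rulers `N`, `n0`, `n - n0`, `m`, `n` -/
  | rN | rn0 | rPad | rM | rn
  /- rulers `k, beta, b, W, s00` -/
  | rk | rbe | rb | rW | rs00
  /- rulers `s = p-1`, `2s`, `W-b`, `n*2W`, `s*n*2W`, `n*2W-W` -/
  | rs | r2s | rWb | rRW | rZ | rKZ
  /- rulers of a bit operation: `t, 2^t, 2^t * n` -/
  | rt | r2t | r2tn
  /- numbers of `W` bits, least significant bit on top: `p, om, om^(-1), 2^W/p, De`, first entry
  of the third table -/
  | np | nom | nomi | nmu | nDe | nT3
  /- tables: streams of `W`-bit entries -/
  | tT1 | tH1 | tT2 | tH2 | tT3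
  /- temporaries -/
  | t (i : Fin 40)
  deriving DecidableEq, Fintype

/-- Contents of the named registers. -/
structure DV : Type where
  inp : List Bool := []
  outp : List Bool := []
  X : List Bool := []
  cx : List Bool := []
  cy : List Bool := []
  cz : List Bool := []
  rN : List Bool := []
  rn0 : List Bool := []
  rPad : List Bool := []
  rM : List Bool := []
  rn : List Bool := []
  rk : List Bool := []
  rbe : List Bool := []
  rb : List Bool := []
  rW : List Bool := []
  rs00 : List Bool := []
  rs : List Bool := []
  r2s : List Bool := []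
  rWb : List Bool := []
  rRW : List Bool := []
  rZ : List Bool := []
  rKZ : List Bool := []
  rt : List Bool := []
  r2t : List Bool := []
  r2tn : List Bool := []
  np : List Bool := []
  nom : List Bool := []
  nomi : List Bool := []
  nmu : List Bool := []
  nDe : List Bool := []
  nT3 : List Bool := []
  tT1 : List Bool := []
  tH1 : List Bool := []
  tT2 : List Bool := []
  tH2 : List Bool := []
  tT3 : List Bool := []

/-- The store. -/
def DV.st (v : DV) : Store RD Bool
  | .inp => v.inp
  | .outp => v.outp
  | .X => v.X
  | .cx => v.cx
  | .cy => v.cy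
  | .cz => v.cz
  | .rN => v.rN
  | .rn0 => v.rn0
  | .rPad => v.rPad
  | .rM => v.rM
  | .rn => v.rn
  | .rk => v.rk
  | .rbe => v.rbe
  | .rb => v.rb
  | .rW => v.rW
  | .rs00 => v.rs00
  | .rs => v.rs
  | .r2s => v.r2s
  | .rWb => v.rWb
  | .rRW => v.rRW
  | .rZ => v.rZ
  | .rKZ => v.rKZ
  | .rt => v.rt
  | .r2t => v.r2t
  | .r2tn => v.r2tn
  | .np => v.np
  | .nom => v.nom
  | .nomi => v.nomi
  | .nmu => v.nmu
  | .nDe => v.nDe
  | .nT3 => v.nT3
  | .tT1 => v.tT1
  | .tH1 => v.tH1
  | .tT2 => v.tT2
  | .tH2 => v.tH2
  | .tT3 => v.tT3
  | .t _ => []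

namespace DV

variable {L Y Z : Type}

theorem put_st {e : L → RD} (he : Function.Injective e) {t' : Store L Bool} {v v' : DV}
    (h1 : ∀ l, v'.st (e l) = t' l) (h2 : ∀ r, (∀ l, e l ≠ r) → v'.st r = v.st r) :
    put e t' v.st = v'.st := by
  funext r
  by_cases h : ∃ l, e l = r
  · obtain ⟨l, rfl⟩ := h
    rw [put_apply he, h1]
  · rw [put_of_not _ _ h, h2 r (fun l hl => h ⟨l, hl⟩)]

/-- Use of a base procedure. -/
theorem run {e : L → RD} (he : Function.Injective e) {p : Prog L Bool} {s s' : Store L Bool}
    {c : ℕ} (h : Runs p s s' c) {v v' : DV} (h0 : ∀ l, v.st (e l) = s l)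
    (h1 : ∀ l, v'.st (e l) = s' l) (h2 : ∀ r, (∀ l, e l ≠ r) → v'.st r = v.st r) :
    Runs (p.ren e) v.st v'.st c := by
  have := h.ren' he v.st h0
  rwa [put_st he h1 h2] at this

/-- Use of a procedure with inner calls. -/
theorem lrun {e : L → RD} (he : Function.Injective e) {p : Prog (L ⊕ Y) (Bool ⊕ Z)}
    {s s' : Store L Bool} {c : ℕ} (h : LRuns p s s' c) {v v' : DV} (h0 : ∀ l, v.st (e l) = s l)
    (h1 : ∀ l, v'.st (e l) = s' l) (h2 : ∀ r, (∀ l, e l ≠ r) → v'.st r = v.st r) :
    LRuns (p.ren (Sum.map e id)) v.st v'.st c := by
  have := h.ren he v.st h0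
  rwa [put_st he h1 h2] at this

theorem upd_inp (v : DV) (x : List Bool) : update v.st .inp x = { v with inp := x }.st := by
  funext r; cases r <;> rfl

theorem upd_outp (v : DV) (x : List Bool) : update v.st .outp x = { v with outp := x }.st := by
  funext r; cases r <;> rfl

theorem upd_X (v : DV) (x : List Bool) : update v.st .X x = { v with X := x }.st := by
  funext r; cases r <;> rfl

theorem upd_cx (v : DV) (x : List Bool) : update v.st .cx x = { v with cx := x }.st := by
  funext r; cases r <;> rfl

theorem upd_cy (v : DV) (x : List Bool) : update v.st .cy x = { v with cy := x }.st := by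
  funext r; cases r <;> rfl

theorem upd_cz (v : DV) (x : List Bool) : update v.st .cz x = { v with cz := x }.st := by
  funext r; cases r <;> rfl

theorem upd_rN (v : DV) (x : List Bool) : update v.st .rN x = { v with rN := x }.st := by
  funext r; cases r <;> rfl

theorem upd_rn0 (v : DV) (x : List Bool) : update v.st .rn0 x = { v with rn0 := x }.st := by
  funext r; cases r <;> rfl

theorem upd_rPad (v : DV) (x : List Bool) : update v.st .rPad x = { v with rPad := x }.st := by
  funext r; cases r <;> rfl

theorem upd_rM (v : DV) (x : List Bool) : update v.st .rM x = { v with rM := x }.st := by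
  funext r; cases r <;> rfl

theorem upd_rn (v : DV) (x : List Bool) : update v.st .rn x = { v with rn := x }.st := by
  funext r; cases r <;> rfl

theorem upd_rk (v : DV) (x : List Bool) : update v.st .rk x = { v with rk := x }.st := by
  funext r; cases r <;> rfl

theorem upd_rbe (v : DV) (x : List Bool) : update v.st .rbe x = { v with rbe := x }.st := by
  funext r; cases r <;> rfl

theorem upd_rb (v : DV) (x : List Bool) : update v.st .rb x = { v with rb := x }.st := by
  funext r; cases r <;> rfl

theorem upd_rW (v : DV) (x : List Bool) : update v.st .rW x = { v with rW := x }.st := by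
  funext r; cases r <;> rfl

theorem upd_rs00 (v : DV) (x : List Bool) : update v.st .rs00 x = { v with rs00 := x }.st := by
  funext r; cases r <;> rfl

theorem upd_rs (v : DV) (x : List Bool) : update v.st .rs x = { v with rs := x }.st := by
  funext r; cases r <;> rfl

theorem upd_r2s (v : DV) (x : List Bool) : update v.st .r2s x = { v with r2s := x }.st := by
  funext r; cases r <;> rfl

theorem upd_rWb (v : DV) (x : List Bool) : update v.st .rWb x = { v with rWb := x }.st := by
  funext r; cases r <;> rfl

theorem upd_rRW (v : DV) (x : List Bool) : update v.st .rRW x = { v with rRW := x }.st := by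
  funext r; cases r <;> rfl

theorem upd_rZ (v : DV) (x : List Bool) : update v.st .rZ x = { v with rZ := x }.st := by
  funext r; cases r <;> rfl

theorem upd_rKZ (v : DV) (x : List Bool) : update v.st .rKZ x = { v with rKZ := x }.st := by
  funext r; cases r <;> rfl

theorem upd_rt (v : DV) (x : List Bool) : update v.st .rt x = { v with rt := x }.st := by
  funext r; cases r <;> rfl

theorem upd_r2t (v : DV) (x : List Bool) : update v.st .r2t x = { v with r2t := x }.st := by
  funext r; cases r <;> rfl

theorem upd_r2tn (v : DV) (x : List Bool) : update v.st .r2tn x = { v with r2tn := x }.st := by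
  funext r; cases r <;> rfl

theorem upd_np (v : DV) (x : List Bool) : update v.st .np x = { v with np := x }.st := by
  funext r; cases r <;> rfl

theorem upd_nom (v : DV) (x : List Bool) : update v.st .nom x = { v with nom := x }.st := by
  funext r; cases r <;> rfl

theorem upd_nomi (v : DV) (x : List Bool) : update v.st .nomi x = { v with nomi := x }.st := by
  funext r; cases r <;> rfl

theorem upd_nmu (v : DV) (x : List Bool) : update v.st .nmu x = { v with nmu := x }.st := by
  funext r; cases r <;> rfl

theorem upd_nDe (v : DV) (x : List Bool) : update v.st .nDe x = { v with nDe := x }.st := by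
  funext r; cases r <;> rfl

theorem upd_nT3 (v : DV) (x : List Bool) : update v.st .nT3 x = { v with nT3 := x }.st := by
  funext r; cases r <;> rfl

theorem upd_tT1 (v : DV) (x : List Bool) : update v.st .tT1 x = { v with tT1 := x }.st := by
  funext r; cases r <;> rfl

theorem upd_tH1 (v : DV) (x : List Bool) : update v.st .tH1 x = { v with tH1 := x }.st := by
  funext r; cases r <;> rfl

theorem upd_tT2 (v : DV) (x : List Bool) : update v.st .tT2 x = { v with tT2 := x }.st := by
  funext r; cases r <;> rfl

theorem upd_tH2 (v : DV) (x : List Bool) : update v.st .tH2 x = { v with tH2 := x }.st := by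
  funext r; cases r <;> rfl

theorem upd_tT3 (v : DV) (x : List Bool) : update v.st .tT3 x = { v with tT3 := x }.st := by
  funext r; cases r <;> rfl

end DV

end Vale.Agent.P338
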