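import Vale.Agent.P338.H763.Lib

/-!
# Library procedures with the final store given by an equation

The first explicit argument collects the distinctness conditions (closed by `decide` for concrete
registers).
-/

namespace Vale.Agent.P338

open Function (update)

namespace Runs

variable {R Γ : Type} [DecidableEq R] {s s' : Store R Γ} {r q src dst : R} {c : ℕ}
  {a b : Γ}

theorem flipE (hrq : r ≠ q) (hs' : update (update s r []) q ((s r).reverse ++ s q) = s')
    (hc : 2 * (s r).length + 1 ≤ c) : Runs (.flip r q) s s' c :=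
  (Runs.flip hrq s).conv hs' hc

theorem clearE (hs' : update s r [] = s') (hc : 2 * (s r).length + 1 ≤ c) :
    Runs (.clear r) s s' c :=
  (Runs.clear r s).conv hs' hc

theorem copyE (hd : r ≠ q ∧ r ≠ dst ∧ q ≠ dst) (hq : s q = [])
    (hs' : update s dst (s r ++ s dst) = s') (hc : 4 * (s r).length + 2 ≤ c) :
    Runs (.copy r q dst) s s' c :=
  (Runs.copy hd.1 hd.2.1 hd.2.2 hq).conv hs' hc

theorem fillE (hd : r ≠ q ∧ r ≠ dst ∧ q ≠ dst) (n : ℕ) (hr : s r = List.replicate n a)
    (hq : s q = []) (hs' : update s dst (List.replicate n b ++ s dst) = s') (hc : 5 * n + 2 ≤ c) :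
    Runs (.fill r q dst b) s s' c :=
  (Runs.fill hd.1 hd.2.1 hd.2.2 hr hq).conv hs' hc

theorem xferE (hd : r ≠ q ∧ r ≠ src ∧ r ≠ dst ∧ q ≠ src ∧ q ≠ dst ∧ src ≠ dst)
    (n : ℕ) (u v : List Γ) (hr : s r = List.replicate n a) (hq : s q = [])
    (hs : s src = u ++ v) (hu : u.length = n)
    (hs' : update (update s src v) dst (u.reverse ++ s dst) = s') (hc : 5 * n + 2 ≤ c) :
    Runs (.xfer r q src dst) s s' c :=
  (Runs.xfer hd.1 hd.2.1 hd.2.2.1 hd.2.2.2.1 hd.2.2.2.2.1 hd.2.2.2.2.2 hr hq hs hu).conv hs' hc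

theorem skipE (hd : r ≠ q ∧ r ≠ src ∧ q ≠ src) (n : ℕ) (u v : List Γ)
    (hr : s r = List.replicate n a) (hq : s q = [])
    (hs : s src = u ++ v) (hu : u.length = n) (hs' : update s src v = s') (hc : 5 * n + 2 ≤ c) :
    Runs (.skip r q src) s s' c :=
  (Runs.skip hd.1 hd.2.1 hd.2.2 hr hq hs hu).conv hs' hc

end Runs

end Vale.Agent.P338
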