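import Vale.Agent.P338.H51.Outer
import Vale.Agent.P338.H51.Eq
import Vale.Agent.P338.H932.Pow
import Vale.Agent.P338.H930.ParamD

/-!
# Stage 2: unary rulers

Integer part of the logarithm and of a quotient, in unary.
-/

namespace Vale.Agent.P338

open Function (update)

namespace H51

open Vale.Agent.P338.H932

/-! ### `⌊log₂ n⌋` -/

/-- registers of the logarithm program -/
inductive LG : Type
  | x | L | P | Z | A | q
  deriving DecidableEq

/-- a store of rulers -/
def lst (x L P Z A q : ℕ) : Store LG Bool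
  | .x => zer x
  | .L => zer L
  | .P => zer P
  | .Z => zer Z
  | .A => zer A
  | .q => zer q

/-- one doubling -/
def logBody : Prog LG Bool :=
  .seq (.push .L false) (.seq (.whileNE .P (.seq (.mv .P .Z) (.seq (.push .Z false) (.pop .A))))
    (.flip .Z .P))

/-- `L := ⌊log₂ x⌋` -/
def logProg : Prog LG Bool :=
  .seq (.copy .x .q .A) <| .seq (.push .P false) <| .seq (.whileNE .A logBody) <|
    .seq (.clear .P) (.pop .L)

theorem zer_reverse (n : ℕ) : (zer n).reverse = zer n := by simp [zer]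

theorem zer_append (m n : ℕ) : zer m ++ zer n = zer (m + n) := by simp [zer]

theorem logBody_runs (x l k d : ℕ) :
    Runs logBody (lst x l k 0 d 0) (lst x (l + 1) (2 * k) 0 (d - k) 0) (8 * k + 3) := by
  have h1 : Runs (.push .L false) (lst x l k 0 d 0) (lst x (l + 1) k 0 d 0) 1 := by
    refine (Runs.push LG.L false _).conv ?_ le_rfl
    funext r; cases r <;> simp [lst, update, zer_succ]
  have h2 := Runs.loop_family (t := fun t => (t LG.P).isSome)
    (body := (.seq (.mv .P .Z) (.seq (.push .Z false) (.pop .A)) : Prog LG Bool))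
    (fun i => lst x (l + 1) (k - i) (2 * i) (d - i) 0) k (fun _ => 3)
    (by
      intro i hi
      simp only [Store.tops, lst]
      rw [show k - i = (k - i - 1) + 1 by omega, zer_succ]; rfl)
    (by simp [Store.tops, lst, zer])
    (by
      intro i hi
      refine Runs.seq' (c₁ := 1) (c₂ := 2) (s₁ := lst x (l + 1) (k - (i + 1)) (2 * i + 1)
        (d - i) 0) ?_ (Runs.seq' (c₁ := 1) (c₂ := 1) (s₁ := lst x (l + 1) (k - (i + 1))
          (2 * i + 2) (d - i) 0) ?_ ?_ le_rfl) le_rfl
      · refine (Runs.mv_cons (r := LG.P) (q := LG.Z) (by decide) (a := false)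
          (l := zer (k - (i + 1))) ?_).conv ?_ le_rfl
        · simp only [lst]
          rw [show k - i = (k - (i + 1)) + 1 by omega, zer_succ]
        · funext r; cases r <;> simp [lst, update, zer_succ]
      · refine (Runs.push LG.Z false _).conv ?_ le_rfl
        funext r; cases r <;> simp [lst, update, zer_succ]
      · refine (Runs.pop LG.A _).conv ?_ le_rfl
        funext r; cases r <;> simp [lst, update, tail_zer, Nat.mul_add, Nat.sub_sub])
  have h3 : Runs (.flip .Z .P) (lst x (l + 1) (k - k) (2 * k) (d - k) 0)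
      (lst x (l + 1) (2 * k) 0 (d - k) 0) (4 * k + 1) := by
    refine Runs.flipE (by decide) ?_ ?_
    · funext r; cases r <;> simp [lst, update, zer_zero, zer_reverse]
    · simp only [lst, zer_length]; omega
  refine (h1.seq (Runs.seq (s₁ := lst x (l + 1) (k - k) (2 * k) (d - k) 0) (h2.conv' ?_)
    h3)).weaken ?_
  · simp
  · simp only [Finset.sum_const, Finset.card_range, smul_eq_mul]; omega

theorem clog_succ (n : ℕ) : Nat.clog 2 (n + 1) - 1 = Nat.log 2 n := by
  rcases Nat.eq_zero_or_pos n with rfl | hn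
  · simp
  · have h1 : Nat.clog 2 (n + 1) = Nat.log 2 n + 1 := by
      apply le_antisymm
      · rw [Nat.clog_le_iff_le_pow (by norm_num)]
        exact Nat.lt_pow_succ_log_self (by norm_num) n
      · rw [Nat.succ_le_iff, Nat.lt_clog_iff_pow_lt (by norm_num)]
        exact Nat.lt_succ_of_le (Nat.pow_log_le_self 2 hn.ne')
    rw [h1]; rfl

theorem logProg_runs (n : ℕ) :
    Runs logProg (lst n 0 0 0 0 0) (lst n (Nat.log 2 n) 0 0 0 0) (30 * n + 40) := by
  set L := Nat.clog 2 (n + 1) with hL
  have h1 : Runs (.copy .x .q .A) (lst n 0 0 0 0 0) (lst n 0 0 0 n 0) (4 * n + 2) :=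
    Runs.copyE (by decide) rfl (by funext r; cases r <;> simp [lst, update, zer_zero]) (by simp [lst])
  have h3 : Runs (.push .P false) (lst n 0 0 0 n 0) (lst n 0 1 0 n 0) 1 := by
    refine (Runs.push LG.P false _).conv ?_ le_rfl
    funext r; cases r <;> simp [lst, update, zer]
  have h4 := Runs.loop_family (t := fun t => (t LG.A).isSome) (body := logBody)
    (fun l => lst n l (2 ^ l) 0 (n + 1 - 2 ^ l) 0)
    L (fun l => 8 * 2 ^ l + 3)
    (by
      intro l hl
      have : 2 ^ l < n + 1 := Nat.pow_lt_of_lt_clog hl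
      simp only [Store.tops, lst]
      rw [show n + 1 - 2 ^ l = (n - 2 ^ l) + 1 by omega, zer_succ]; rfl)
    (by
      have : n + 1 ≤ 2 ^ L := Nat.le_pow_clog (by norm_num) _
      simp only [Store.tops, lst]
      rw [show n + 1 - 2 ^ L = 0 by omega]; rfl)
    (by
      intro l hl
      refine (logBody_runs n l (2 ^ l) (n + 1 - 2 ^ l)).conv ?_ le_rfl
      rw [pow_succ, Nat.sub_sub, Nat.mul_two, Nat.two_mul])
  have h5 : n + 1 - 2 ^ L = 0 := by
    have : n + 1 ≤ 2 ^ L := Nat.le_pow_clog (by norm_num) _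
    omega
  rw [h5] at h4
  have h6 : Runs (.clear .P) (lst n L (2 ^ L) 0 0 0) (lst n L 0 0 0 0) (2 * 2 ^ L + 1) :=
    Runs.clearE (by funext r; cases r <;> simp [lst, update, zer_zero]) (by simp [lst])
  have h7 : Runs (.pop .L) (lst n L 0 0 0 0) (lst n (Nat.log 2 n) 0 0 0 0) 1 := by
    refine (Runs.pop LG.L _).conv ?_ le_rfl
    funext r; cases r <;> simp [lst, update, tail_zer, hL, clog_succ]
  refine (h1.seq (h3.seq ((h4.conv' ?_).seq (h6.seq h7)))).weaken ?_
  · simp
  · have h6 := pow_clog_le (n + 1)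
    have h7 := sum_two_pow L
    have h8 : ∑ i ∈ Finset.range L, (8 * 2 ^ i + 3 + 1)
        = 8 * ∑ i ∈ Finset.range L, 2 ^ i + 4 * L := by
      rw [Finset.mul_sum, ← Nat.mul_comm L 4, ← smul_eq_mul L 4, ← Finset.card_range L,
        ← Finset.sum_const, Finset.card_range, ← Finset.sum_add_distrib]
    have h9 : L ≤ n + 1 := by
      rw [hL]
      exact Nat.clog_le_of_le_pow (Nat.lt_two_pow_self).le
    rw [← hL] at h6
    rw [h8]
    omega

/-! ### `n / b` -/

/-- registers of the division program -/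
inductive DG : Type
  | x | b | Q | B1 | B2 | q
  deriving DecidableEq

/-- a store with explicit rulers `x`, `q` -/
def dgst (x : List Bool) (b Q B1 B2 : ℕ) (q : List Bool) : Store DG Bool
  | .x => x
  | .b => zer b
  | .Q => zer Q
  | .B1 => zer B1
  | .B2 => zer B2
  | .q => q

/-- one tick -/
def divBody : Prog DG Bool :=
  .seq (.mv .B1 .B2) (.peek .B1 fun o => if o.isSome then .nop else
    .seq (.push .Q false) (.flip .B2 .B1))

/-- `Q := x / b` -/
def divProg : Prog DG Bool :=
  .seq (.copy .b .q .B1) (.seq (.forR .x .q divBody) (.seq (.clear .B1) (.clear .B2)))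

/-- cost of one tick -/
def dvCost (b i : ℕ) : ℕ := 3 + if (i + 1) / b = i / b then 1 else 2 * b + 3

theorem div_succ_cases {b : ℕ} (hb : 0 < b) (i : ℕ) :
    (i % b + 1 < b ∧ (i + 1) / b = i / b ∧ (i + 1) % b = i % b + 1) ∨
      (i % b + 1 = b ∧ (i + 1) / b = i / b + 1 ∧ (i + 1) % b = 0) := by
  have h1 := Nat.mod_lt i hb
  have h2 := Nat.div_add_mod i b
  rcases Nat.lt_or_ge (i % b + 1) b with h | h
  · left
    have h3 : i + 1 = (i % b + 1) + b * (i / b) := by omega
    refine ⟨h, ?_, ?_⟩
    · rw [h3, Nat.add_mul_div_left _ _ hb, Nat.div_eq_of_lt h, Nat.zero_add]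
    · rw [h3, Nat.add_mul_mod_self_left, Nat.mod_eq_of_lt h]
  · right
    have h3 : i + 1 = b * (i / b + 1) := by rw [Nat.mul_add]; omega
    refine ⟨by omega, ?_, ?_⟩
    · rw [h3, Nat.mul_div_cancel_left _ hb]
    · rw [h3, Nat.mul_mod_right]

theorem sum_dvCost {b : ℕ} (hb : 0 < b) (n : ℕ) :
    ∑ i ∈ Finset.range n, dvCost b i ≤ 4 * n + (2 * b + 2) * (n / b) := by
  induction n with
  | zero => simp
  | succ n ih =>
    rw [Finset.sum_range_succ, dvCost]
    rcases div_succ_cases hb n with ⟨_, h, _⟩ | ⟨_, h, _⟩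
    · rw [h, if_pos rfl]; omega
    · rw [h, if_neg (by omega)]
      nlinarith

/-- state after `i` ticks -/
def dvSt (b i : ℕ) (x q : List Bool) : Store DG Bool :=
  dgst x b (i / b) (b - i % b) (i % b) q

theorem divBody_runs {b : ℕ} (hb : 0 < b) (i : ℕ) (x q : List Bool) :
    Runs divBody (dvSt b i x q) (dvSt b (i + 1) x q) (dvCost b i) := by
  have h1 := Nat.mod_lt i hb
  obtain ⟨d, hd⟩ : ∃ d, b - i % b = d + 1 := ⟨b - i % b - 1, by omega⟩
  have s1 : Runs (.mv .B1 .B2) (dvSt b i x q) (dgst x b (i / b) d (i % b + 1) q) 1 := by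
    rw [dvSt, hd]
    refine (Runs.mv_cons (r := DG.B1) (q := DG.B2) (by decide) (a := false)
          (l := zer d) rfl).conv ?_ le_rfl
    funext r; cases r <;> simp [dgst, update, zer_succ]
  rcases div_succ_cases hb i with ⟨h3, h4, h5⟩ | ⟨h3, h4, h5⟩
  · refine (s1.seq (Runs.peek (c := 1) ?_)).weaken ?_
    · obtain ⟨d', hd'⟩ : ∃ d', d = d' + 1 := ⟨d - 1, by omega⟩
      have : ((dgst x b (i / b) d (i % b + 1) q) DG.B1).head? = some false := by
        rw [hd']; rfl
      rw [this]
      refine (Runs.nop _).conv ?_ le_rfl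
      rw [dvSt, h4, h5]
      congr 1; omega
    · rw [dvCost, h4, if_pos rfl]; omega
  · have hd0 : d = 0 := by omega
    subst hd0
    refine (s1.seq (Runs.peek (c := 2 * b + 3) ?_)).weaken ?_
    · have : ((dgst x b (i / b) 0 (i % b + 1) q) DG.B1).head? = none := rfl
      rw [this]
      refine Runs.seq' (c₁ := 1) (c₂ := 2 * b + 1) (s₁ := dgst x b (i / b + 1) 0 b q)
        ?_ ?_ (by omega)
      · refine (Runs.push DG.Q false _).conv ?_ le_rfl
        rw [h3]
        funext r; cases r <;> simp [dgst, update, zer_succ]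
      · refine Runs.flipE (by decide) ?_ ?_
        · rw [dvSt, h4, h5]
          funext r; cases r <;> simp [dgst, update, zer_zero, zer_reverse]
        · simp [dgst]
    · rw [dvCost, h4, if_neg (by omega)]; omega

theorem divProg_runs {b : ℕ} (hb : 0 < b) (n : ℕ) :
    Runs divProg (dgst (zer n) b 0 0 0 []) (dgst (zer n) b (n / b) 0 0 [])
      (12 * n + 8 * b + 10) := by
  have h1 : Runs (.copy .b .q .B1) (dgst (zer n) b 0 0 0 []) (dgst (zer n) b 0 b 0 [])
      (4 * b + 2) :=
    Runs.copyE (by decide) rfl (by funext r; cases r <;> simp [dgst, update, zer_zero]) (by simp [dgst])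
  have h2 : Runs (.forR .x .q divBody) (dgst (zer n) b 0 b 0 []) (dvSt b n (zer n) [])
      (∑ i ∈ Finset.range n, dvCost b i + 4 * n + 2) := by
    have hF : ∀ i x y x' y', update (update (dvSt b i x y) DG.x x') DG.q y'
        = dvSt b i x' y' := by
      intro i x y x' y'
      funext r; cases r <;> simp [dgst, dvSt, update]
    have := Runs.forR_sum (r := DG.x) (q := DG.q) (p := divBody) (by decide) (a := false) (n := n)
      (fun i => dvSt b i (zer n) []) (dvCost b) rfl rfl
      (by
        intro i hi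
        simp only [hF]
        exact divBody_runs hb i _ _)
    simp only [hF, zer_eq] at this
    simpa [dvSt] using this
  have hm := Nat.mod_lt n hb
  have h3 : Runs (.clear .B1) (dvSt b n (zer n) []) (dgst (zer n) b (n / b) 0 (n % b) [])
      (2 * b + 1) := by
    refine Runs.clearE ?_ ?_
    · funext r; cases r <;> simp [dgst, dvSt, update, zer_zero]
    · simp only [dvSt, dgst, zer_length]; omega
  have h4 : Runs (.clear .B2) (dgst (zer n) b (n / b) 0 (n % b) [])
      (dgst (zer n) b (n / b) 0 0 []) (2 * b + 1) := by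
    refine Runs.clearE ?_ ?_
    · funext r; cases r <;> simp [dgst, update, zer_zero]
    · simp only [dgst, zer_length]; omega
  refine (h1.seq (h2.seq (h3.seq h4))).weaken ?_
  have h5 := sum_dvCost hb n
  have h6 : b * (n / b) ≤ n := Nat.mul_div_le n b
  have h7 : n / b ≤ n := Nat.div_le_self n b
  nlinarith

/-! ### The parameters `k, beta, b, W, s00` -/

/-- registers -/
inductive UG : Type
  | n0 | k | be | b | W | s00 | e | f | a1 | a2 | a3 | a4
  deriving DecidableEq

/-- a store of rulers -/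
def ust (n0 k be b W s00 e f a1 a2 a3 a4 : ℕ) : Store UG Bool
  | .n0 => zer n0
  | .k => zer k
  | .be => zer be
  | .b => zer b
  | .W => zer W
  | .s00 => zer s00
  | .e => zer e
  | .f => zer f
  | .a1 => zer a1
  | .a2 => zer a2
  | .a3 => zer a3
  | .a4 => zer a4

/-- `k := log₂ n0` -/
def eLog1 : Emb LG UG Bool Bool where
  reg
    | .x => .n0 | .L => .k | .P => .a1 | .Z => .a2 | .A => .a3 | .q => .a4
  regInv
    | .n0 => some .x | .k => some .L | .a1 => some .P | .a2 => some .Z | .a3 => some .A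
    | .a4 => some .q | _ => none
  reg_inv := by intro r; cases r <;> rfl
  reg_eq := by intro r r' h; cases r <;> simp at h <;> subst h <;> rfl
  sym := id
  symInv := some
  sym_inv := fun _ => rfl

/-- `be := log₂ k` -/
def eLog2 : Emb LG UG Bool Bool where
  reg
    | .x => .k | .L => .be | .P => .a1 | .Z => .a2 | .A => .a3 | .q => .a4
  regInv
    | .k => some .x | .be => some .L | .a1 => some .P | .a2 => some .Z | .a3 => some .A
    | .a4 => some .q | _ => none
  reg_inv := by intro r; cases r <;> rfl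
  reg_eq := by intro r r' h; cases r <;> simp at h <;> subst h <;> rfl
  sym := id
  symInv := some
  sym_inv := fun _ => rfl

/-- `b := 2 ^ be` -/
def ePow1 : Emb H932.PR UG Bool Bool where
  reg
    | .r => .be | .q => .a1 | .B => .b | .c1 => .a2 | .c2 => .a3
  regInv
    | .be => some .r | .a1 => some .q | .b => some .B | .a2 => some .c1 | .a3 => some .c2
    | _ => none
  reg_inv := by intro r; cases r <;> rfl
  reg_eq := by intro r r' h; cases r <;> simp at h <;> subst h <;> rfl
  sym := id
  symInv := some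
  sym_inv := fun _ => rfl

/-- `f := 2 ^ e` -/
def ePow2 : Emb H932.PR UG Bool Bool where
  reg
    | .r => .e | .q => .a1 | .B => .f | .c1 => .a2 | .c2 => .a3
  regInv
    | .e => some .r | .a1 => some .q | .f => some .B | .a2 => some .c1 | .a3 => some .c2
    | _ => none
  reg_inv := by intro r; cases r <;> rfl
  reg_eq := by intro r r' h; cases r <;> simp at h <;> subst h <;> rfl
  sym := id
  symInv := some
  sym_inv := fun _ => rfl

/-- `s00 := n0 / b` -/
def eDiv : Emb DG UG Bool Bool where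
  reg
    | .x => .n0 | .b => .b | .Q => .s00 | .B1 => .a1 | .B2 => .a2 | .q => .a3
  regInv
    | .n0 => some .x | .b => some .b | .s00 => some .Q | .a1 => some .B1 | .a2 => some .B2
    | .a3 => some .q | _ => none
  reg_inv := by intro r; cases r <;> rfl
  reg_eq := by intro r r' h; cases r <;> simp at h <;> subst h <;> rfl
  sym := id
  symInv := some
  sym_inv := fun _ => rfl

/-- the parameters `k, be, b, W, s00` from `n0` -/
def paramProg : Prog UG Bool :=
  .seq (logProg.emb eLog1) <| .seq (logProg.emb eLog2) <| .seq (.pop .be) <| .seq (.pop .be) <|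
  .seq (H932.pow2.emb ePow1) <| .seq (H933.linRuler .k .W .a1 10 91) <|
  .seq (divProg.emb eDiv) <| .seq (H933.linRuler .b .e .a1 2 3) <|
  .seq (H932.pow2.emb ePow2) <| .seq (.clear .e) (.flip .f .s00)

theorem paramProg_runs (n : ℕ) (hn : n ≠ 0) :
    Runs paramProg (ust n 0 0 0 0 0 0 0 0 0 0 0)
      (ust n (D.kk n) (D.be n) (D.bb n) (D.WW n) (D.s00 n) 0 0 0 0 0 0)
      (1000 * n + 1000) := by
  set k := D.kk n with hk
  set b := D.bb n with hb
  have hb0 : 0 < b := D.bb_pos n
  have h1 : Runs (logProg.emb eLog1) (ust n 0 0 0 0 0 0 0 0 0 0 0) (ust n k 0 0 0 0 0 0 0 0 0 0)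
      (30 * n + 40) := by
    refine Runs.emb eLog1 (logProg_runs n) ?_ ?_ ?_
    · intro r; cases r <;> simp [ust, lst, eLog1, zer_zero]
    · intro r; cases r <;> simp [ust, lst, eLog1, zer_zero, hk, D.kk]
    · intro r hr; cases r <;> simp [eLog1] at hr <;> rfl
  have h2 : Runs (logProg.emb eLog2) (ust n k 0 0 0 0 0 0 0 0 0 0)
      (ust n k (Nat.log 2 k) 0 0 0 0 0 0 0 0 0) (30 * k + 40) := by
    refine Runs.emb eLog2 (logProg_runs k) ?_ ?_ ?_
    · intro r; cases r <;> simp [ust, lst, eLog2, zer_zero]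
    · intro r; cases r <;> simp [ust, lst, eLog2, zer_zero]
    · intro r hr; cases r <;> simp [eLog2] at hr <;> rfl
  have h3 : Runs (.pop .be) (ust n k (Nat.log 2 k) 0 0 0 0 0 0 0 0 0)
      (ust n k (Nat.log 2 k - 1) 0 0 0 0 0 0 0 0 0) 1 := by
    refine (Runs.pop UG.be _).conv ?_ le_rfl
    funext r; cases r <;> simp [ust, update, tail_zer]
  have h4 : Runs (.pop .be) (ust n k (Nat.log 2 k - 1) 0 0 0 0 0 0 0 0 0)
      (ust n k (D.be n) 0 0 0 0 0 0 0 0 0) 1 := by
    refine (Runs.pop UG.be _).conv ?_ le_rfl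
    have : Nat.log 2 k - 1 - 1 = D.be n := by rw [D.be, Nat.sub_sub]
    funext r; cases r <;> simp [ust, update, tail_zer, this]
  have h5 : Runs (H932.pow2.emb ePow1) (ust n k (D.be n) 0 0 0 0 0 0 0 0 0)
      (ust n k (D.be n) b 0 0 0 0 0 0 0 0) (16 * b) := by
    refine Runs.emb ePow1 (H932.pow2_runs (D.be n)) ?_ ?_ ?_
    · intro r; cases r <;> simp [ust, H932.pst, ePow1, zer_zero]
    · intro r; cases r <;> simp [ust, H932.pst, ePow1, zer_zero, hb, D.bb]
    · intro r hr; cases r <;> simp [ePow1] at hr <;> rfl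
  have h6 : Runs (H933.linRuler .k .W .a1 10 91) (ust n k (D.be n) b 0 0 0 0 0 0 0 0)
      (ust n k (D.be n) b (D.WW n) 0 0 0 0 0 0 0) (15 * k + 95) := by
    have e : 10 * k + 91 = D.WW n := by rw [D.WW, hk]; ring
    refine (H933.runs_linRuler (by decide) (by decide) (by decide) 10 91 _ rfl).conv ?_ ?_
    · funext r; cases r <;> simp [ust, update, zer_zero, e]
    · simp [ust]
  have h7 : Runs (divProg.emb eDiv) (ust n k (D.be n) b (D.WW n) 0 0 0 0 0 0 0)
      (ust n k (D.be n) b (D.WW n) (n / b) 0 0 0 0 0 0) (12 * n + 8 * b + 10) := by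
    refine Runs.emb eDiv (divProg_runs hb0 n) ?_ ?_ ?_
    · intro r; cases r <;> simp [ust, dgst, eDiv, zer_zero]
    · intro r; cases r <;> simp [ust, dgst, eDiv, zer_zero]
    · intro r hr; cases r <;> simp [eDiv] at hr <;> rfl
  have h8 : Runs (H933.linRuler .b .e .a1 2 3) (ust n k (D.be n) b (D.WW n) (n / b) 0 0 0 0 0 0)
      (ust n k (D.be n) b (D.WW n) (n / b) (2 * b + 3) 0 0 0 0 0) (7 * b + 7) := by
    refine (H933.runs_linRuler (by decide) (by decide) (by decide) 2 3 _ rfl).conv ?_ ?_
    · funext r; cases r <;> simp [ust, update, zer_zero]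
    · simp [ust]
  have h9 : Runs (H932.pow2.emb ePow2) (ust n k (D.be n) b (D.WW n) (n / b) (2 * b + 3) 0 0 0 0 0)
      (ust n k (D.be n) b (D.WW n) (n / b) (2 * b + 3) (2 ^ (2 * b + 3)) 0 0 0 0)
      (16 * 2 ^ (2 * b + 3)) := by
    refine Runs.emb ePow2 (H932.pow2_runs (2 * b + 3)) ?_ ?_ ?_
    · intro r; cases r <;> simp [ust, H932.pst, ePow2, zer_zero]
    · intro r; cases r <;> simp [ust, H932.pst, ePow2, zer_zero]
    · intro r hr; cases r <;> simp [ePow2] at hr <;> rfl
  have h10 : Runs (.clear .e)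
      (ust n k (D.be n) b (D.WW n) (n / b) (2 * b + 3) (2 ^ (2 * b + 3)) 0 0 0 0)
      (ust n k (D.be n) b (D.WW n) (n / b) 0 (2 ^ (2 * b + 3)) 0 0 0 0) (4 * b + 7) := by
    refine Runs.clearE (by funext r; cases r <;> simp [ust, update, zer_zero]) ?_
    simp only [ust, zer_length]; omega
  have h11 : Runs (.flip .f .s00)
      (ust n k (D.be n) b (D.WW n) (n / b) 0 (2 ^ (2 * b + 3)) 0 0 0 0)
      (ust n k (D.be n) b (D.WW n) (D.s00 n) 0 0 0 0 0 0) (2 * 2 ^ (2 * b + 3) + 1) := by
    have e : 2 ^ (2 * b + 3) + n / b = D.s00 n := by rw [D.s00, ← hb, Nat.add_comm]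
    refine Runs.flipE (by decide) ?_ (by simp [ust])
    funext r; cases r <;> simp [ust, update, zer_zero, zer_reverse, zer_append, e]
  refine (h1.seq <| h2.seq <| h3.seq <| h4.seq <| h5.seq <| h6.seq <| h7.seq <| h8.seq <|
    h9.seq <| h10.seq h11).weaken ?_
  have g1 : k ≤ n := Nat.log_le_self 2 n
  have g2 : 2 ^ (2 * b + 3) ≤ 32 * n := by
    have := D.two_bb_three n hn
    rw [← hb] at this
    nlinarith
  have g3 : b ≤ k + 1 := by
    rcases D.bb_le n with h | h <;> omega
  have g4 : 1 ≤ n := by omega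
  omega

end H51

end Vale.Agent.P338
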