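import Vale.Agent.P338.H51.RD
import Vale.Agent.P338.H51.RulersD
import Vale.Agent.P338.H811.TransD
import Vale.Agent.P338.H666.Select
import Vale.Agent.P338.H931.Unary

/-!
# Stage 2: the low digits (bit operations `t = be-1, ..., 0`)
-/

namespace Vale.Agent.P338

open Function (update)

namespace H51

open Vale.Agent.P338.H932 Vale.Agent.P338.H811

/-- registers of `pow2` -/
def ePw : H932.PR → RD
  | .r => .rt | .q => .t 0 | .B => .r2t | .c1 => .t 1 | .c2 => .t 2

theorem ePw_inj : Function.Injective ePw := by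
  intro a b h; cases a <;> cases b <;> first | rfl | (exact absurd h (by decide))

/-- registers of the bit operation -/
def eSel : H666.SR → RD
  | .X => .X | .Y => .t 0 | .O => .t 1 | .T => .t 2 | .U => .t 3 | .M => .r2tn | .M' => .t 4
  | .W => .r2t | .W' => .t 5 | .J => .t 6 | .J' => .t 7 | .I => .t 8 | .I' => .t 9
  | .K => .t 10 | .K' => .t 11 | .N => .t 12 | .N' => .t 13

theorem eSel_inj : Function.Injective eSel := by
  intro a b h; cases a <;> cases b <;> first | rfl | (exact absurd h (by decide))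

/-- one bit operation; the ruler `rt` is first decreased -/
noncomputable def lowBody : Prog RD Bool :=
  .seq (.pop .rt) <| .seq (H932.pow2.ren ePw) <|
  .seq (.mulTo .r2t .rn .r2tn (.t 0) (.t 1)) <| .seq (H666.bitP.ren eSel) <|
  .seq (.clear .r2t) (.clear .r2tn)

/-- the bit operations `be-1, ..., 0` -/
noncomputable def lowProg : Prog RD Bool :=
  .seq (.copy .rbe (.t 0) .rt) (.whileNE .rt lowBody)

theorem lowBody_runs (v : DV) (n t : ℕ) (hn : 2 ^ (t + 1) ∣ n) (hn0 : 0 < n)
    (hX : v.X.length = n * n) (hrn : v.rn = zer n) (hrt : v.rt = zer (t + 1)) (h1 : v.r2t = [])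
    (h2 : v.r2tn = []) :
    Runs lowBody v.st { v with rt := zer t, X := E.bitop n t v.X }.st (200 * (n * n)) := by
  obtain ⟨q, hq⟩ := hn
  have hq0 : 0 < q := by
    rcases Nat.eq_zero_or_pos q with h | h
    · subst h; omega
    · exact h
  have htn : 2 ^ t ≤ n := by
    rw [hq, pow_succ]; nlinarith [Nat.two_pow_pos t]
  let v1 : DV := { v with rt := zer t }
  let v2 : DV := { v1 with r2t := zer (2 ^ t) }
  let v3 : DV := { v2 with r2tn := zer (2 ^ t * n) }
  let v4 : DV := { v3 with X := E.bitop n t v.X }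
  let v5 : DV := { v4 with r2t := [] }
  have s1 : Runs (.pop .rt) v.st v1.st 1 := by
    refine (Runs.pop RD.rt _).conv ?_ le_rfl
    have : (v.st RD.rt).tail = zer t := by
      show v.rt.tail = _
      rw [hrt, tail_zer]; rfl
    rw [this, DV.upd_rt]
  have s2 : Runs (H932.pow2.ren ePw) v1.st v2.st (16 * 2 ^ t) := by
    refine DV.run ePw_inj (H932.pow2_runs t) ?_ ?_ ?_
    · intro l; cases l <;> first | rfl | exact h1
    · intro l; cases l <;> rfl
    · intro r hr; cases r <;> first | rfl | exact absurd rfl (hr .B)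
  have s3 : Runs (.mulTo .r2t .rn .r2tn (.t 0) (.t 1)) v2.st v3.st
      (2 ^ t * (5 * n + 6) + 2) := by
    refine (Runs.mulTo (s := v2.st) (a := RD.r2t) (b := RD.rn) (c := RD.r2tn) (t₁ := RD.t 0)
      (t₂ := RD.t 1) (x := 2 ^ t) (y := n) (z := 0) (by decide) (by decide) (by decide)
      (by decide) (by decide) (by decide) (by decide) (by decide) (by decide) (by decide) rfl hrn
      h2 rfl rfl).conv ?_ le_rfl
    rw [DV.upd_r2tn]; rfl
  have s4 : Runs (H666.bitP.ren eSel) v3.st v4.st (40 * (n * n) + 40) := by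
    have h := H666.bitP_runs ⟨v.X, [], [], [], [], zer (2 ^ t * n), [], zer (2 ^ t), [], [], [],
      [], [], [], [], [], []⟩ n t ⟨q, hq⟩ hX (H51.zer_length _) (H51.zer_length _) rfl rfl rfl rfl
      rfl rfl rfl rfl rfl rfl
    refine (DV.run eSel_inj h ?_ ?_ ?_).weaken (by simp only [hX]; omega)
    · intro l; cases l <;> rfl
    · intro l; cases l <;> rfl
    · intro r hr; cases r <;> first | rfl | exact absurd rfl (hr .X)
  have s5 : Runs (.clear .r2t) v4.st v5.st (2 * 2 ^ t + 1) :=
    Runs.clearE (by rw [DV.upd_r2t]) (by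
      show 2 * (zer (2 ^ t)).length + 1 ≤ _
      rw [H51.zer_length])
  have s6 : Runs (.clear .r2tn) v5.st { v with rt := zer t, X := E.bitop n t v.X }.st
      (2 * (2 ^ t * n) + 1) := by
    refine Runs.clearE (by rw [DV.upd_r2tn, ← h2]; simp only [v5, v4, v3, v2, v1, ← h1]) (by
      show 2 * (zer (2 ^ t * n)).length + 1 ≤ _
      rw [H51.zer_length])
  refine (s1.seq <| s2.seq <| s3.seq <| s4.seq <| s5.seq s6).weaken ?_
  have g1 : 2 ^ t * n ≤ n * n := Nat.mul_le_mul_right _ htn
  have g2 : n ≤ n * n := Nat.le_mul_self n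
  have g3 : 2 ^ t * (5 * n + 6) = 5 * (2 ^ t * n) + 6 * 2 ^ t := by ring
  rw [g3]
  omega

theorem lowLoop_runs (v : DV) (n t : ℕ) (hn : 2 ^ t ∣ n) (hn0 : 0 < n)
    (hX : v.X.length = n * n) (hrn : v.rn = zer n) (hrt : v.rt = zer t) (h1 : v.r2t = [])
    (h2 : v.r2tn = []) :
    Runs (.whileNE .rt lowBody) v.st { v with rt := [], X := bitsDown n t v.X }.st
      (t * (200 * (n * n) + 1) + 1) := by
  induction t generalizing v with
  | zero =>
    refine (Runs.whileNE_nil (r := RD.rt) (s := v.st) hrt).conv ?_ (by omega)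
    rw [H51.zer_zero] at hrt
    rw [bitsDown, ← hrt]
  | succ t ih =>
    have hb := lowBody_runs v n t hn hn0 hX hrn hrt h1 h2
    have hl : (E.bitop n t v.X).length = n * n := by
      obtain ⟨q, hq⟩ := hn
      exact H666.length_bitop n t q hq v.X hX
    have := ih { v with rt := zer t, X := E.bitop n t v.X }
      (dvd_trans (pow_dvd_pow 2 (Nat.le_succ t)) hn) hl hrn rfl h1 h2
    refine (Runs.whileNE_cons (r := RD.rt) (s := v.st) (a := false) (l := zer t) hrt hb
      this).conv ?_ ?_
    · rfl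
    · have e : (t + 1) * (200 * (n * n) + 1) = t * (200 * (n * n) + 1) + (200 * (n * n) + 1) := by
        ring
      rw [e]; omega

theorem lowProg_runs (v : DV) (n t : ℕ) (hn : 2 ^ t ∣ n) (hn0 : 0 < n)
    (hX : v.X.length = n * n) (hrn : v.rn = zer n) (hbe : v.rbe = zer t) (hrt : v.rt = [])
    (h1 : v.r2t = []) (h2 : v.r2tn = []) :
    Runs lowProg v.st { v with X := bitsDown n t v.X }.st
      (t * (200 * (n * n) + 5) + 3) := by
  have s1 : Runs (.copy .rbe (.t 0) .rt) v.st { v with rt := zer t }.st (4 * t + 2) := by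
    refine Runs.copyE (by decide) rfl ?_ ?_
    · have : v.st RD.rbe ++ v.st RD.rt = zer t := by
        show v.rbe ++ v.rt = _
        rw [hbe, hrt, List.append_nil]
      rw [this, DV.upd_rt]
    · show 4 * v.rbe.length + 2 ≤ _
      rw [hbe, H51.zer_length]
  have s2 := lowLoop_runs { v with rt := zer t } n t hn hn0 hX hrn rfl h1 h2
  refine (s1.seq s2).conv ?_ ?_
  · rw [← hrt]
  · ring_nf; omega

end H51

end Vale.Agent.P338
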