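import Vale.Agent.P338.H51.Wrap
import Vale.Agent.P338.Compile
import Vale.Agent.P338.H933.Basic

/-!
# P338: the machine of a stack program

`progMachine P rin rout inj dec` is a multitape Turing machine (in the sense of `Defs.lean`) which
loads its input bits onto the stack `rin` (as symbols `inj b`, the last bit on top), runs the
program `P`, and writes the stack `rout` (top first, `dec` of each symbol) on its output tape.
-/

namespace Vale.Agent.P338

open Machine (written)

namespace H51

variable {R Γ : Type}

/-- the tape automaton of a program -/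
def TA.ofProg [Finite R] [Finite Γ] (P : Prog R Γ) : TA R Γ where
  X := PS P
  fin := PS.finite P
  start := PS.start P
  δ := pstep P

/-- the two forms of tapes -/
def toTC (T : Tapes R Γ) : TC R Γ := fun r => (T.head r, T.cells r)

theorem exitsIn_of_exits [Finite R] [Finite Γ] {P : Prog R Γ} {u : PS P} {T T' : Tapes R Γ} {n : ℕ}
    (h : Exits P u T T' n) : (TA.ofProg P).ExitsIn u (toTC T) (toTC T') n := by
  induction h with
  | last h => exact TA.ExitsIn.last (A := TA.ofProg P) h
  | more h _ ih => exact TA.ExitsIn.step (A := TA.ofProg P) h ih

theorem encCells_eq (l : List Γ) : encCells l = written (encL l) := by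
  funext n
  cases n with
  | zero => simp [encCells, encL, written]
  | succ n =>
    simp only [encCells, encL, written, List.getD_eq_getElem?_getD, List.getElem?_cons_succ,
      List.getElem?_map]
    cases l.reverse[n]? <;> simp

theorem toTC_enc (s : Store R Γ) : toTC (enc s) = encS s := by
  funext r
  simp [toTC, enc, encS, encCells_eq]

end H51

variable {R Γ : Type} [Fintype R] [DecidableEq R] [Finite Γ]

/-- The machine of a stack program. -/
noncomputable def progMachine (P : Prog R Γ) (rin rout : R) (inj : Bool → Γ) (dec : Γ → Bool) :
    Machine :=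
  H51.machine (H51.TA.ofProg P) rin rout inj dec

/-- **From programs to machines**: if the program, started with the reversed input on the stack
`rin` and all other stacks empty, ends with cost at most `c` and with `z` on the stack `rout`, then
its machine halts after at most `2 (c + |v| + |z| + 1)` steps with `z` on the output tape. -/
theorem progMachine_haltsAt (P : Prog R Γ) (rin rout : R) (inj : Bool → Γ) (dec : Γ → Bool)
    (hdec : ∀ b, dec (inj b) = b) (v z : List Bool) {s' : Store R Γ} {c : ℕ}
    (h : Runs P (Function.update (fun _ => []) rin ((v.map inj).reverse)) s' c)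
    (hz : s' rout = z.map inj) :
    ∃ t, t ≤ 2 * (c + v.length + z.length + 1) ∧ ∃ cfg,
      (progMachine P rin rout inj dec).HaltsAt (v.map Symb.bit) t cfg ∧
      cfg.tape (progMachine P rin rout inj dec).out = written (z.map Symb.bit) := by
  obtain ⟨n, hn, h1⟩ := compile_exits h
  have h2 := H51.exitsIn_of_exits h1
  rw [H51.toTC_enc, H51.toTC_enc] at h2
  obtain ⟨cfg, h3, h4⟩ := H51.machine_haltsAt (H51.TA.ofProg P) rin rout inj dec v h2
    (z.map inj) (by simp [H51.encS, hz])
  refine ⟨_, ?_, cfg, h3, ?_⟩
  · simp only [List.length_map]; omega
  · refine h4.trans ?_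
    have hc : dec ∘ inj = id := funext hdec
    have : (z.map inj).map dec = z := by rw [List.map_map, hc, List.map_id]
    rw [this]
    rfl

/-- the output of the machine of a program -/
theorem progMachine_outputs (P : Prog R Γ) (rin rout : R) (inj : Bool → Γ) (dec : Γ → Bool)
    (hdec : ∀ b, dec (inj b) = b) (v z : List Bool) {s' : Store R Γ} {c : ℕ}
    (h : Runs P (Function.update (fun _ => []) rin ((v.map inj).reverse)) s' c)
    (hz : s' rout = z.map inj) :
    (progMachine P rin rout inj dec).Outputs (v.map Symb.bit) z := by
  obtain ⟨t, _, cfg, h1, h2⟩ := progMachine_haltsAt P rin rout inj dec hdec v z h hz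
  exact ⟨t, cfg, h1, h2⟩

theorem transposeWord_length (n : ℕ) (w : List Bool) : (transposeWord n w).length = n * n := by
  simp [transposeWord]

/-- **The machine of a program that transposes.** -/
theorem progMachine_transposesAll (P : Prog R Γ) (rin rout : R) (inj : Bool → Γ) (dec : Γ → Bool)
    (hdec : ∀ b, dec (inj b) = b) (cost : ℕ → ℕ)
    (h : ∀ v : List Bool, v ≠ [] → ∃ s',
      Runs P (Function.update (fun _ => []) rin ((v.map inj).reverse)) s' (cost v.length) ∧
      s' rout = (transposeWord (Nat.sqrt v.length) v).map inj) :
    TransposesAll (progMachine P rin rout inj dec) ∧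
      ∀ N, 1 ≤ N → wordTime (progMachine P rin rout inj dec) N ≤ 2 * (cost N + 2 * N + 1) := by
  constructor
  · intro v hv
    obtain ⟨s', h1, h2⟩ := h v hv
    exact progMachine_outputs P rin rout inj dec hdec v _ h1 h2
  · intro N hN
    apply wordTime_le
    intro v hv
    have hv0 : v ≠ [] := by rintro rfl; simp at hv; omega
    obtain ⟨s', h1, h2⟩ := h v hv0
    obtain ⟨t, ht, cfg, h3, _⟩ := progMachine_haltsAt P rin rout inj dec hdec v _ h1 h2
    have h4 : Nat.sqrt v.length * Nat.sqrt v.length ≤ v.length := Nat.sqrt_le v.length
    rw [transposeWord_length, hv] at ht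
    rw [hv] at h4
    calc (progMachine P rin rout inj dec).runTime (v.map Symb.bit) = t := h3.runTime_eq
      _ ≤ 2 * (cost N + 2 * N + 1) := by omega

end Vale.Agent.P338
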