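import Vale.Agent.P338.H51.RulersD
import Vale.Agent.P338.H931.Unary

/-!
# Stage 2: unary rulers computed after the search of the prime
-/

namespace Vale.Agent.P338

open Function (update)

namespace H51

open Vale.Agent.P338.H932

/-- registers -/
inductive UH : Type
  | N | n0 | b | W | s | n | pad | s2 | Wb | RW | Z | KZ | M | W2 | q1 | q2
  deriving DecidableEq

/-- a store of rulers -/
structure HV where
  N : ℕ := 0
  n0 : ℕ := 0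
  b : ℕ := 0
  W : ℕ := 0
  s : ℕ := 0
  n : ℕ := 0
  pad : ℕ := 0
  s2 : ℕ := 0
  Wb : ℕ := 0
  RW : ℕ := 0
  Z : ℕ := 0
  KZ : ℕ := 0
  M : ℕ := 0
  W2 : ℕ := 0

/-- the store -/
def HV.st (v : HV) : Store UH Bool
  | .N => zer v.N
  | .n0 => zer v.n0
  | .b => zer v.b
  | .W => zer v.W
  | .s => zer v.s
  | .n => zer v.n
  | .pad => zer v.pad
  | .s2 => zer v.s2
  | .Wb => zer v.Wb
  | .RW => zer v.RW
  | .Z => zer v.Z
  | .KZ => zer v.KZ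
  | .M => zer v.M
  | .W2 => zer v.W2
  | .q1 => []
  | .q2 => []

/-- the rulers, after the search of the prime -/
def rulProg (C s0 : ℕ) : Prog UH Bool :=
  .seq (.mulTo .s .b .n .q1 .q2) <|
  .seq (.copy .n .q1 .pad) <| .seq (.skip .n0 .q1 .pad) <|
  .seq (.addTo .s .s2 .q1) <| .seq (.addTo .s .s2 .q1) <|
  .seq (.copy .W .q1 .Wb) <| .seq (.skip .b .q1 .Wb) <|
  .seq (.addTo .W .W2 .q1) <| .seq (.addTo .W .W2 .q1) <|
  .seq (.mulTo .n .W2 .RW .q1 .q2) <| .seq (.clear .W2) <|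
  .seq (.mulTo .s .RW .Z .q1 .q2) <|
  .seq (.copy .RW .q1 .KZ) <| .seq (.skip .W .q1 .KZ)
    (H933.linRuler .N .M .q1 C s0)

/-- final values -/
def HV.fin (C s0 N n0 b W s : ℕ) : HV where
  N := N
  n0 := n0
  b := b
  W := W
  s := s
  n := s * b
  pad := s * b - n0
  s2 := 2 * s
  Wb := W - b
  RW := s * b * (2 * W)
  Z := s * (s * b * (2 * W))
  KZ := s * b * (2 * W) - W
  M := C * N + s0

section steps

variable {v v' : HV}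

theorem hMul {r₁ r₂ q : UH} {a b c : ℕ} (hd : r₁ ≠ r₂ ∧ r₁ ≠ q ∧ r₁ ≠ .q1 ∧ r₁ ≠ .q2 ∧
    r₂ ≠ q ∧ r₂ ≠ .q1 ∧ r₂ ≠ .q2 ∧ q ≠ .q1 ∧ q ≠ .q2) (hr₁ : v.st r₁ = zer a) (hr₂ : v.st r₂ = zer b)
    (hq : v.st q = zer c) (h : update v.st q (zer (a * b + c)) = v'.st) :
    Runs (.mulTo r₁ r₂ q .q1 .q2) v.st v'.st (a * (5 * b + 6) + 2) := by
  obtain ⟨h12, h1q, h10, h11, h2q, h20, h21, hq0, hq1⟩ := hd
  exact (Runs.mulTo h12 h1q h10 h11 h2q h20 h21 hq0 hq1 (by decide) hr₁ hr₂ hq rfl rfl).conv h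
    le_rfl

theorem hAdd {r q : UH} {a b : ℕ} (hd : r ≠ q ∧ r ≠ .q1 ∧ q ≠ .q1) (hr : v.st r = zer a) (hq : v.st q = zer b)
    (h : update v.st q (zer (a + b)) = v'.st) :
    Runs (.addTo r q .q1) v.st v'.st (5 * a + 2) :=
  (Runs.addTo hd.1 hd.2.1 hd.2.2 hr hq rfl).conv h le_rfl

theorem hCopy {r q : UH} {a : ℕ} (hd : r ≠ .q1 ∧ r ≠ q ∧ UH.q1 ≠ q) (hr : v.st r = zer a) (hq : v.st q = [])
    (h : update v.st q (zer a) = v'.st) :
    Runs (.copy r .q1 q) v.st v'.st (4 * a + 2) := by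
  refine (Runs.copy hd.1 hd.2.1 hd.2.2 rfl).conv ?_ ?_
  · rw [hr, hq, List.append_nil, h]
  · rw [hr, zer_length]

theorem hSkip {r q : UH} {a b : ℕ} (hd : r ≠ .q1 ∧ r ≠ q ∧ UH.q1 ≠ q) (hr : v.st r = zer a) (hq : v.st q = zer b) (hab : a ≤ b)
    (h : update v.st q (zer (b - a)) = v'.st) :
    Runs (.skip r .q1 q) v.st v'.st (5 * a + 2) := by
  refine (Runs.skip hd.1 hd.2.1 hd.2.2 (a := false) (n := a) (u := zer a) (v := zer (b - a)) hr rfl ?_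
    (zer_length a)).conv h le_rfl
  rw [hq, H51.zer_append]
  congr 1
  omega

end steps

theorem rulProg_runs (C s0 N n0 b W s : ℕ) (hn0 : n0 ≤ s * b) (hb : b ≤ W) (hs : 1 ≤ s)
    (hb1 : 1 ≤ b) :
    Runs (rulProg C s0) (HV.st ⟨N, n0, b, W, s, 0, 0, 0, 0, 0, 0, 0, 0, 0⟩)
      (HV.st (HV.fin C s0 N n0 b W s))
      (60 * (s * (s * b * (2 * W))) + 60 * (s * b) + 60 * W + (C + 5) * N + s0 + 60) := by
  set n := s * b with hn
  set RW := n * (2 * W) with hRW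
  have hW : 1 ≤ W := by omega
  have hn1 : 1 ≤ n := Nat.mul_pos hs hb1
  have hWR : W ≤ RW := by rw [hRW]; nlinarith
  have s1 : Runs (.mulTo .s .b .n .q1 .q2) (HV.st ⟨N, n0, b, W, s, 0, 0, 0, 0, 0, 0, 0, 0, 0⟩)
      (HV.st ⟨N, n0, b, W, s, n, 0, 0, 0, 0, 0, 0, 0, 0⟩) (s * (5 * b + 6) + 2) :=
    hMul (by decide) (c := 0) rfl rfl rfl (by funext r; cases r <;> rfl)
  have s2 : Runs (.copy .n .q1 .pad) (HV.st ⟨N, n0, b, W, s, n, 0, 0, 0, 0, 0, 0, 0, 0⟩)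
      (HV.st ⟨N, n0, b, W, s, n, n, 0, 0, 0, 0, 0, 0, 0⟩) (4 * n + 2) :=
    hCopy (by decide) rfl rfl (by funext r; cases r <;> rfl)
  have s3 : Runs (.skip .n0 .q1 .pad) (HV.st ⟨N, n0, b, W, s, n, n, 0, 0, 0, 0, 0, 0, 0⟩)
      (HV.st ⟨N, n0, b, W, s, n, n - n0, 0, 0, 0, 0, 0, 0, 0⟩) (5 * n0 + 2) :=
    hSkip (by decide) rfl rfl hn0 (by funext r; cases r <;> rfl)
  have s4 : Runs (.addTo .s .s2 .q1) (HV.st ⟨N, n0, b, W, s, n, n - n0, 0, 0, 0, 0, 0, 0, 0⟩)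
      (HV.st ⟨N, n0, b, W, s, n, n - n0, s, 0, 0, 0, 0, 0, 0⟩) (5 * s + 2) :=
    hAdd (by decide) (b := 0) rfl rfl (by funext r; cases r <;> rfl)
  have s5 : Runs (.addTo .s .s2 .q1) (HV.st ⟨N, n0, b, W, s, n, n - n0, s, 0, 0, 0, 0, 0, 0⟩)
      (HV.st ⟨N, n0, b, W, s, n, n - n0, 2 * s, 0, 0, 0, 0, 0, 0⟩) (5 * s + 2) :=
    hAdd (by decide) (b := s) rfl rfl (by funext r; cases r <;> simp [HV.st, update, Nat.two_mul])
  have s6 : Runs (.copy .W .q1 .Wb) (HV.st ⟨N, n0, b, W, s, n, n - n0, 2 * s, 0, 0, 0, 0, 0, 0⟩)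
      (HV.st ⟨N, n0, b, W, s, n, n - n0, 2 * s, W, 0, 0, 0, 0, 0⟩) (4 * W + 2) :=
    hCopy (by decide) rfl rfl (by funext r; cases r <;> rfl)
  have s7 : Runs (.skip .b .q1 .Wb) (HV.st ⟨N, n0, b, W, s, n, n - n0, 2 * s, W, 0, 0, 0, 0, 0⟩)
      (HV.st ⟨N, n0, b, W, s, n, n - n0, 2 * s, W - b, 0, 0, 0, 0, 0⟩) (5 * b + 2) :=
    hSkip (by decide) rfl rfl hb (by funext r; cases r <;> rfl)
  have s8 : Runs (.addTo .W .W2 .q1)
      (HV.st ⟨N, n0, b, W, s, n, n - n0, 2 * s, W - b, 0, 0, 0, 0, 0⟩)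
      (HV.st ⟨N, n0, b, W, s, n, n - n0, 2 * s, W - b, 0, 0, 0, 0, W⟩) (5 * W + 2) :=
    hAdd (by decide) (b := 0) rfl rfl (by funext r; cases r <;> rfl)
  have s9 : Runs (.addTo .W .W2 .q1)
      (HV.st ⟨N, n0, b, W, s, n, n - n0, 2 * s, W - b, 0, 0, 0, 0, W⟩)
      (HV.st ⟨N, n0, b, W, s, n, n - n0, 2 * s, W - b, 0, 0, 0, 0, 2 * W⟩) (5 * W + 2) :=
    hAdd (by decide) (b := W) rfl rfl (by funext r; cases r <;> simp [HV.st, update, Nat.two_mul])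
  have s10 : Runs (.mulTo .n .W2 .RW .q1 .q2)
      (HV.st ⟨N, n0, b, W, s, n, n - n0, 2 * s, W - b, 0, 0, 0, 0, 2 * W⟩)
      (HV.st ⟨N, n0, b, W, s, n, n - n0, 2 * s, W - b, RW, 0, 0, 0, 2 * W⟩)
      (n * (5 * (2 * W) + 6) + 2) :=
    hMul (by decide) (c := 0) rfl rfl rfl (by funext r; cases r <;> rfl)
  have s11 : Runs (.clear .W2)
      (HV.st ⟨N, n0, b, W, s, n, n - n0, 2 * s, W - b, RW, 0, 0, 0, 2 * W⟩)
      (HV.st ⟨N, n0, b, W, s, n, n - n0, 2 * s, W - b, RW, 0, 0, 0, 0⟩) (4 * W + 1) :=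
    Runs.clearE (by funext r; cases r <;> rfl) (by simp [HV.st]; omega)
  have s12 : Runs (.mulTo .s .RW .Z .q1 .q2)
      (HV.st ⟨N, n0, b, W, s, n, n - n0, 2 * s, W - b, RW, 0, 0, 0, 0⟩)
      (HV.st ⟨N, n0, b, W, s, n, n - n0, 2 * s, W - b, RW, s * RW, 0, 0, 0⟩)
      (s * (5 * RW + 6) + 2) :=
    hMul (by decide) (c := 0) rfl rfl rfl (by funext r; cases r <;> rfl)
  have s13 : Runs (.copy .RW .q1 .KZ)
      (HV.st ⟨N, n0, b, W, s, n, n - n0, 2 * s, W - b, RW, s * RW, 0, 0, 0⟩)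
      (HV.st ⟨N, n0, b, W, s, n, n - n0, 2 * s, W - b, RW, s * RW, RW, 0, 0⟩) (4 * RW + 2) :=
    hCopy (by decide) rfl rfl (by funext r; cases r <;> rfl)
  have s14 : Runs (.skip .W .q1 .KZ)
      (HV.st ⟨N, n0, b, W, s, n, n - n0, 2 * s, W - b, RW, s * RW, RW, 0, 0⟩)
      (HV.st ⟨N, n0, b, W, s, n, n - n0, 2 * s, W - b, RW, s * RW, RW - W, 0, 0⟩)
      (5 * W + 2) :=
    hSkip (by decide) rfl rfl hWR (by funext r; cases r <;> rfl)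
  have s15 : Runs (H933.linRuler .N .M .q1 C s0)
      (HV.st ⟨N, n0, b, W, s, n, n - n0, 2 * s, W - b, RW, s * RW, RW - W, 0, 0⟩)
      (HV.st (HV.fin C s0 N n0 b W s)) ((C + 5) * N + s0 + 4) := by
    refine (H933.runs_linRuler (by decide) (by decide) (by decide) C s0 _ rfl).conv ?_ ?_
    · funext r; cases r <;> simp [HV.st, HV.fin, update, zer_zero, ← hn, ← hRW]
    · simp [HV.st]
  refine (s1.seq <| s2.seq <| s3.seq <| s4.seq <| s5.seq <| s6.seq <| s7.seq <| s8.seq <|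
    s9.seq <| s10.seq <| s11.seq <| s12.seq <| s13.seq <| s14.seq s15).weaken ?_
  have g1 : s ≤ n := by rw [hn]; nlinarith
  have g2 : b ≤ n := by rw [hn]; nlinarith
  have g3 : RW ≤ s * RW := by nlinarith
  have g4 : s ≤ s * RW := by nlinarith
  have g5 : n * W ≤ RW := by rw [hRW]; nlinarith
  have g6 : s * b = n := rfl
  nlinarith

end H51

end Vale.Agent.P338
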