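import Vale.Agent.P338.H51.LowD
import Vale.Agent.P338.H51.RulersD2
import Vale.Agent.P338.H666.Sieve
import Vale.Agent.P338.H763.Rot
import Vale.Agent.P338.H811.FastD2

/-!
# Stage 2: the outer phases over the registers `RD`
-/

namespace Vale.Agent.P338

open Function (update)

namespace H51

open Vale.Agent.P338.H932 Vale.Agent.P338.H811

/-! ### injections -/

/-- for `lenProg`, `sqrtProg` -/
def rOR : OR → RD
  | .inp => .inp | .X => .X | .rN => .rN | .rn0 => .rn0 | .rn => .rn | .rL => .t 5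
  | .rPad => .rPad | .rM => .rM | .Y => .t 0 | .Z => .t 1 | .A => .t 2 | .q => .t 3 | .q' => .t 4

theorem rOR_inj : Function.Injective rOR := by
  intro a b h; cases a <;> cases b <;> first | rfl | (exact absurd h (by decide))

/-- for `paramProg` -/
def rUG : UG → RD
  | .n0 => .rn0 | .k => .rk | .be => .rbe | .b => .rb | .W => .rW | .s00 => .rs00
  | .e => .t 0 | .f => .t 1 | .a1 => .t 2 | .a2 => .t 3 | .a3 => .t 4 | .a4 => .t 5

theorem rUG_inj : Function.Injective rUG := by
  intro a b h; cases a <;> cases b <;> first | rfl | (exact absurd h (by decide))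

/-- for the sieve -/
def rVR : H666.VR → RD
  | .S => .rs00 | .S' => .t 0 | .C => .t 1 | .D => .t 2 | .A => .t 3 | .B => .t 4 | .Z => .rs

theorem rVR_inj : Function.Injective rVR := by
  intro a b h; cases a <;> cases b <;> first | rfl | (exact absurd h (by decide))

/-- for `rulProg` -/
def rUH : UH → RD
  | .N => .rN | .n0 => .rn0 | .b => .rb | .W => .rW | .s => .rs | .n => .rn | .pad => .rPad
  | .s2 => .r2s | .Wb => .rWb | .RW => .rRW | .Z => .rZ | .KZ => .rKZ | .M => .rM
  | .W2 => .t 0 | .q1 => .t 1 | .q2 => .t 2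

theorem rUH_inj : Function.Injective rUH := by
  intro a b h; cases a <;> cases b <;> first | rfl | (exact absurd h (by decide))

/-- for `padProg` -/
def rPR : PR → RD
  | .src => .inp | .dst => .X | .Y => .t 0 | .Z => .t 1 | .n => .rn | .n0 => .rn0 | .D => .rPad
  | .A => .t 2 | .q => .t 3 | .q' => .t 4

theorem rPR_inj : Function.Injective rPR := by
  intro a b h; cases a <;> cases b <;> first | rfl | (exact absurd h (by decide))

/-- for `unpadProg` -/
def rPO : PR → RD
  | .src => .X | .dst => .outp | .Y => .t 0 | .Z => .t 1 | .n => .rn | .n0 => .rn0 | .D => .rPad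
  | .A => .t 2 | .q => .t 3 | .q' => .t 4

theorem rPO_inj : Function.Injective rPO := by
  intro a b h; cases a <;> cases b <;> first | rfl | (exact absurd h (by decide))

/-- for the rotations -/
def rR3 : H763.R3 → RD
  | .X => .X | .Y => .t 0 | .A => .t 1 | .B => .t 2 | .rn => .rn | .q => .t 3 | .q' => .t 4

theorem rR3_inj : Function.Injective rR3 := by
  intro a b h; cases a <;> cases b <;> first | rfl | (exact absurd h (by decide))

/-! ### input phase -/

/-- the constant of the size of the large multiplications -/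
def CD : ℕ := 16777216

/-- the input phase of stage 2 -/
noncomputable def preD (s0 : ℕ) : Prog RD Bool :=
  .seq (lenProg.ren rOR) <| .seq (sqrtProg.ren rOR) <| .seq (paramProg.ren rUG) <|
  .seq (H666.sieve.ren rVR) <| .seq ((rulProg CD s0).ren rUH) (padProg.ren rPR)

/-- rulers after the input phase, and the matrix `X` -/
def preV (s0 N : ℕ) (X : List Bool) : DV where
  X := X
  rN := zer N
  rn0 := zer (Nat.sqrt N)
  rPad := zer (D.nn (Nat.sqrt N) - Nat.sqrt N)
  rM := zer (CD * N + s0)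
  rn := zer (D.nn (Nat.sqrt N))
  rk := zer (D.kk (Nat.sqrt N))
  rbe := zer (D.be (Nat.sqrt N))
  rb := zer (D.bb (Nat.sqrt N))
  rW := zer (D.WW (Nat.sqrt N))
  rs00 := zer (D.s00 (Nat.sqrt N))
  rs := zer (D.pp (Nat.sqrt N) - 1)
  r2s := zer (2 * (D.pp (Nat.sqrt N) - 1))
  rWb := zer (D.WW (Nat.sqrt N) - D.bb (Nat.sqrt N))
  rRW := zer (D.nn (Nat.sqrt N) * (2 * D.WW (Nat.sqrt N)))
  rZ := zer ((D.pp (Nat.sqrt N) - 1) * (D.nn (Nat.sqrt N) * (2 * D.WW (Nat.sqrt N))))
  rKZ := zer (D.nn (Nat.sqrt N) * (2 * D.WW (Nat.sqrt N)) - D.WW (Nat.sqrt N))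

theorem np_s00 (n0 : ℕ) : H666.np (D.s00 n0) = D.pp n0 := rfl

theorem preD_runs (s0 : ℕ) (w : List Bool) (hw : w ≠ []) :
    Runs (preD s0) ({ inp := w.reverse } : DV).st
      (preV s0 w.length (padL (Nat.sqrt w.length) (D.nn (Nat.sqrt w.length)) w)).st
      (20000000 * (D.nn (Nat.sqrt w.length) * D.nn (Nat.sqrt w.length)
        + D.pp (Nat.sqrt w.length) * D.pp (Nat.sqrt w.length)
          * (D.WW (Nat.sqrt w.length) * D.WW (Nat.sqrt w.length))
        + w.length + s0 + 1)) := by
  obtain ⟨N, hN⟩ : ∃ N, N = w.length := ⟨_, rfl⟩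
  have hN1 : 1 ≤ N := by rw [hN]; exact List.length_pos_iff.2 hw
  rw [← hN]
  obtain ⟨n0, hn0⟩ : ∃ n0, n0 = Nat.sqrt N := ⟨_, rfl⟩
  have hn00 : n0 ≠ 0 := by rw [hn0]; exact (Nat.sqrt_pos.2 hN1).ne'
  have hnN : n0 * n0 ≤ N := by rw [hn0]; exact Nat.sqrt_le N
  have hp := (D.pp_prime n0).two_le
  have s1 : Runs (lenProg.ren rOR) ({ inp := w.reverse } : DV).st
      ({ inp := w.reverse, rN := zer N } : DV).st (5 * N + 2) := by
    have h := lenProg_runs w
    rw [← hN] at h
    refine DV.run rOR_inj h ?_ ?_ ?_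
    · intro l; cases l <;> rfl
    · intro l; cases l <;> rfl
    · intro r hr; cases r <;> first | rfl | exact absurd rfl (hr .rN)
  have s2 : Runs (sqrtProg.ren rOR) ({ inp := w.reverse, rN := zer N } : DV).st
      ({ inp := w.reverse, rN := zer N, rn0 := zer n0 } : DV).st (30 * N + 10) := by
    have h := sqrtProg_runs w.reverse N
    rw [← hn0] at h
    refine DV.run rOR_inj h ?_ ?_ ?_
    · intro l; cases l <;> rfl
    · intro l; cases l <;> rfl
    · intro r hr; cases r <;> first | rfl | exact absurd rfl (hr .rn0)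
  have s3 : Runs (paramProg.ren rUG) ({ inp := w.reverse, rN := zer N, rn0 := zer n0 } : DV).st
      ({ inp := w.reverse, rN := zer N, rn0 := zer n0, rk := zer (D.kk n0), rbe := zer (D.be n0),
          rb := zer (D.bb n0), rW := zer (D.WW n0), rs00 := zer (D.s00 n0) } : DV).st
      (1000 * n0 + 1000) := by
    refine DV.run rUG_inj (paramProg_runs n0 hn00) ?_ ?_ ?_
    · intro l; cases l <;> rfl
    · intro l; cases l <;> rfl
    · intro r hr
      cases r <;> first | rfl | exact absurd rfl (hr .k) | exact absurd rfl (hr .be) |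
        exact absurd rfl (hr .b) | exact absurd rfl (hr .W) | exact absurd rfl (hr .s00)
  have s4 : Runs (H666.sieve.ren rVR)
      ({ inp := w.reverse, rN := zer N, rn0 := zer n0, rk := zer (D.kk n0), rbe := zer (D.be n0),
          rb := zer (D.bb n0), rW := zer (D.WW n0), rs00 := zer (D.s00 n0) } : DV).st
      ({ inp := w.reverse, rN := zer N, rn0 := zer n0, rk := zer (D.kk n0), rbe := zer (D.be n0),
          rb := zer (D.bb n0), rW := zer (D.WW n0), rs00 := zer (D.s00 n0),
          rs := zer (D.pp n0 - 1) } : DV).st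
      (22 * (D.s00 n0 * D.s00 n0) + 50 * D.s00 n0 + 50) := by
    refine DV.run rVR_inj (H666.sieve_runs (D.s00 n0) (D.s00_pos n0)) ?_ ?_ ?_
    · intro l; cases l <;> rfl
    · intro l; cases l <;> rfl
    · intro r hr; cases r <;> first | rfl | exact absurd rfl (hr .Z)
  have s5 : Runs ((rulProg CD s0).ren rUH)
      ({ inp := w.reverse, rN := zer N, rn0 := zer n0, rk := zer (D.kk n0), rbe := zer (D.be n0),
          rb := zer (D.bb n0), rW := zer (D.WW n0), rs00 := zer (D.s00 n0),
          rs := zer (D.pp n0 - 1) } : DV).st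
      ({ preV s0 N [] with inp := w.reverse } : DV).st
      (60 * ((D.pp n0 - 1) * ((D.pp n0 - 1) * D.bb n0 * (2 * D.WW n0)))
        + 60 * ((D.pp n0 - 1) * D.bb n0) + 60 * D.WW n0 + (CD + 5) * N + s0 + 60) := by
    have hb : D.bb n0 ≤ D.WW n0 := by
      have := D.bb_succ_le n0
      unfold D.WW; omega
    refine DV.run rUH_inj (rulProg_runs CD s0 N n0 (D.bb n0) (D.WW n0) (D.pp n0 - 1)
      (D.le_nn n0) hb (by omega) (D.bb_pos n0)) ?_ ?_ ?_
    · intro l; cases l <;> rfl
    · subst hn0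
      intro l; cases l <;> rfl
    · subst hn0
      intro r hr
      cases r <;> first | rfl | exact absurd rfl (hr .n) | exact absurd rfl (hr .pad) |
        exact absurd rfl (hr .s2) | exact absurd rfl (hr .Wb) | exact absurd rfl (hr .RW) |
        exact absurd rfl (hr .Z) | exact absurd rfl (hr .KZ) | exact absurd rfl (hr .M)
  have s6 : Runs (padProg.ren rPR) ({ preV s0 N [] with inp := w.reverse } : DV).st
      (preV s0 N (padL n0 (D.nn n0) w)).st
      (4 * N + 30 * (D.nn n0 * D.nn n0) + 10) := by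
    have h := padProg_runs (D.le_nn n0) (w := w) (by rw [← hN]; exact hnN)
    rw [← hN] at h
    subst hn0
    refine DV.run rPR_inj h ?_ ?_ ?_
    · intro l; cases l <;> rfl
    · intro l; cases l <;> rfl
    · intro r hr; cases r <;> first | rfl | exact absurd rfl (hr .src) | exact absurd rfl (hr .dst)
  rw [← hn0]
  refine (s1.seq <| s2.seq <| s3.seq <| s4.seq <| s5.seq s6).weaken ?_
  obtain ⟨P2, hP2⟩ : ∃ P2, P2 = D.pp n0 * D.pp n0 * (D.WW n0 * D.WW n0) := ⟨_, rfl⟩
  have hW : 1 ≤ D.WW n0 := by unfold D.WW; omega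
  have hb : D.bb n0 ≤ D.WW n0 := by
    have := D.bb_succ_le n0
    unfold D.WW; omega
  have hs00 : D.s00 n0 ≤ D.pp n0 := (D.s00_lt_pp n0).le
  have g1 : D.pp n0 * D.pp n0 ≤ P2 := by
    rw [hP2]; exact Nat.le_mul_of_pos_right _ (Nat.mul_pos hW hW)
  have g2 : D.s00 n0 * D.s00 n0 ≤ P2 := (Nat.mul_le_mul hs00 hs00).trans g1
  have g3 : D.s00 n0 ≤ P2 := (Nat.le_mul_self _).trans g2
  have g4 : (D.pp n0 - 1) * ((D.pp n0 - 1) * D.bb n0 * (2 * D.WW n0)) ≤ 2 * P2 := by
    calc (D.pp n0 - 1) * ((D.pp n0 - 1) * D.bb n0 * (2 * D.WW n0))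
        ≤ D.pp n0 * (D.pp n0 * D.WW n0 * (2 * D.WW n0)) := by
          gcongr <;> omega
      _ = 2 * P2 := by rw [hP2]; ring
  have g5 : (D.pp n0 - 1) * D.bb n0 ≤ D.nn n0 * D.nn n0 := Nat.le_mul_self (D.nn n0)
  have g6 : D.WW n0 ≤ P2 := by
    rw [hP2]
    calc D.WW n0 ≤ D.WW n0 * D.WW n0 := Nat.le_mul_self _
      _ ≤ D.pp n0 * D.pp n0 * (D.WW n0 * D.WW n0) :=
        Nat.le_mul_of_pos_left _ (by positivity)
  have g7 : n0 ≤ N := (Nat.le_mul_self n0).trans hnN
  rw [← hP2]
  have hCD : CD = 16777216 := rfl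
  have g8 : (CD + 5) * N = 16777221 * N := by rw [hCD]
  rw [g8]
  omega

/-! ### rotations and output phase -/

theorem rot1D_runs (v : DV) {n : ℕ} (hX : v.X.length = n * n) (hn : v.rn = zer n) :
    Runs (H763.rot1P.ren rR3) v.st ({ v with X := E.rot1 n v.X } : DV).st
      (11 * (n * n) + 10 * n + 4) := by
  have h := H763.rot1P_runs (s := fun l => v.st (rR3 l)) (n := n) (x := v.X) hX rfl hn rfl rfl rfl
    rfl rfl
  refine DV.run rR3_inj h (fun _ => rfl) ?_ ?_
  · intro l; cases l <;> rfl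
  · intro r hr; cases r <;> first | rfl | exact absurd rfl (hr .X)

theorem rot2D_runs (v : DV) {n : ℕ} (hX : v.X.length = n * n) (hn : v.rn = zer n) :
    Runs (H763.rot2P.ren rR3) v.st ({ v with X := E.rot2 n v.X } : DV).st
      (11 * (n * n) + 10 * n + 4) := by
  have h := H763.rot2P_runs (s := fun l => v.st (rR3 l)) (n := n) (x := v.X) hX rfl hn rfl rfl rfl
    rfl rfl
  refine DV.run rR3_inj h (fun _ => rfl) ?_ ?_
  · intro l; cases l <;> rfl
  · intro r hr; cases r <;> first | rfl | exact absurd rfl (hr .X)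

theorem unpadD_runs (v : DV) {n n0 : ℕ} (h : n0 ≤ n) (hX : v.X.length = n * n)
    (hn : v.rn = zer n) (hn0 : v.rn0 = zer n0) (hp : v.rPad = zer (n - n0)) (ho : v.outp = []) :
    Runs (unpadProg.ren rPO) v.st ({ v with X := [], outp := unpadL n0 n v.X } : DV).st
      (30 * (n * n) + 10) := by
  refine DV.run rPO_inj (unpadProg_runs h hX) ?_ ?_ ?_
  · intro l; cases l <;> first | rfl | assumption
  · intro l; cases l <;> first | rfl | assumption
  · intro r hr; cases r <;> first | rfl | exact absurd rfl (hr .src) | exact absurd rfl (hr .dst)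

/-- after the fast operation: low digits, second rotation, output -/
noncomputable def postD : Prog RD Bool :=
  .seq lowProg <| .seq (H763.rot2P.ren rR3) (unpadProg.ren rPO)

theorem postD_runs (v : DV) {n n0 t : ℕ} (h : n0 ≤ n) (hn1 : 0 < n) (ht : 2 ^ t ∣ n)
    (hX : v.X.length = n * n)
    (hn : v.rn = zer n) (hn0 : v.rn0 = zer n0) (hp : v.rPad = zer (n - n0)) (ho : v.outp = [])
    (hbe : v.rbe = zer t) (hrt : v.rt = []) (h1 : v.r2t = []) (h2 : v.r2tn = []) :
    Runs postD v.st
      ({ v with X := [], outp := unpadL n0 n (E.rot2 n (bitsDown n t v.X)) } : DV).st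
      (300 * ((t + 1) * (n * n)) + 20) := by
  have hl : (bitsDown n t v.X).length = n * n := by
    rw [bitsDown_eq_shear hn1 ht hX]; exact shear_len _ _ _ _
  have hl2 : (E.rot2 n (bitsDown n t v.X)).length = n * n := by
    unfold E.rot2
    rw [cat_length (p := n)]
    intro i hi
    have : i * n + n ≤ n * n := by nlinarith
    simp only [List.length_append, List.length_drop, List.length_take, hl]
    omega
  have s1 := lowProg_runs v n t ht hn1 hX hn hbe hrt h1 h2
  have s2 := rot2D_runs { v with X := bitsDown n t v.X } hl hn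
  have s3 := unpadD_runs { v with X := E.rot2 n (bitsDown n t v.X) } h hl2 hn hn0 hp ho
  refine (s1.seq <| s2.seq s3).weaken ?_
  have e1 : n ≤ n * n := Nat.le_mul_self n
  have e2 : 1 ≤ n * n := Nat.mul_pos hn1 hn1
  nlinarith

end H51

end Vale.Agent.P338
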