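import Vale.Agent.P338.H51.Pad
import Vale.Agent.P338.H933.Embed
import Vale.Agent.P338.H933.MulRuler
import Vale.Agent.P338.Reg

/-!
# The outer phases

From the reversed input word (`N` bits) compute the rulers `N`, `n₀ = ⌊√N⌋`, `n = 2^L ≥ n₀`
minimal, `L`, `n - n₀`, `128 N + s` and the padded matrix.
-/

namespace Vale.Agent.P338

open Function (update)

namespace H51

open Vale.Agent.P338.H932

theorem _root_.Vale.Agent.P338.Runs.conv' {R Γ : Type} {p : Prog R Γ} {s s' s₁ : Store R Γ} {c : ℕ}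
    (h : Runs p s s₁ c) (hs : s = s') : Runs p s' s₁ c := by
  subst hs; exact h

/-! ### Arithmetic -/

theorem sqrt_succ_cases (i : ℕ) :
    (i + 1 < (Nat.sqrt i + 1) ^ 2 ∧ Nat.sqrt (i + 1) = Nat.sqrt i) ∨
      (i + 1 = (Nat.sqrt i + 1) ^ 2 ∧ Nat.sqrt (i + 1) = Nat.sqrt i + 1) := by
  have h1 := Nat.sqrt_le' i
  have h2 := Nat.lt_succ_sqrt' i
  rw [Nat.succ_eq_add_one] at h2
  rcases Nat.lt_or_ge (i + 1) ((Nat.sqrt i + 1) ^ 2) with h | h
  · left
    refine ⟨h, ?_⟩
    rw [eq_comm, Nat.eq_sqrt']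
    exact ⟨by omega, h⟩
  · right
    have h3 : i + 1 = (Nat.sqrt i + 1) ^ 2 := by omega
    refine ⟨h3, ?_⟩
    rw [h3, Nat.sqrt_eq']

/-- cost of one tick of the square root loop -/
def sqCost (i : ℕ) : ℕ := 3 + if Nat.sqrt (i + 1) = Nat.sqrt i then 1 else 4 * Nat.sqrt i + 10

theorem sum_sqCost (N : ℕ) :
    ∑ i ∈ Finset.range N, sqCost i ≤ 4 * N + 13 * (Nat.sqrt N) ^ 2 := by
  induction N with
  | zero => simp
  | succ N ih =>
    rw [Finset.sum_range_succ, sqCost]
    rcases sqrt_succ_cases N with ⟨_, h⟩ | ⟨_, h⟩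
    · rw [h, if_pos rfl]; omega
    · rw [h, if_neg (by omega)]
      nlinarith

/-! ### Registers -/

/-- registers of the outer phases -/
inductive OR : Type
  | inp | X | rN | rn0 | rn | rL | rPad | rM | Y | Z | A | q | q'
  deriving DecidableEq

/-- the store with the given contents -/
def ost (inp X rN rn0 rn rL rPad rM Y Z A q q' : List Bool) : Store OR Bool
  | .inp => inp
  | .X => X
  | .rN => rN
  | .rn0 => rn0
  | .rn => rn
  | .rL => rL
  | .rPad => rPad
  | .rM => rM
  | .Y => Y
  | .Z => Z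
  | .A => A
  | .q => q
  | .q' => q'

/-! ### the ruler `N` -/

/-- `rN := zer |inp|` -/
def lenProg : Prog OR Bool :=
  .seq (.flip .inp .Y) (.whileNE .Y (.seq (.mv .Y .inp) (.push .rN false)))

theorem lenProg_runs (w : List Bool) :
    Runs lenProg (ost w.reverse [] [] [] [] [] [] [] [] [] [] [] [])
      (ost w.reverse [] (zer w.length) [] [] [] [] [] [] [] [] [] []) (5 * w.length + 2) := by
  have h1 : Runs (.flip .inp .Y) (ost w.reverse [] [] [] [] [] [] [] [] [] [] [] [])
      (ost [] [] [] [] [] [] [] [] w [] [] [] []) (2 * w.length + 1) :=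
    Runs.flip_eq (by funext r; cases r <;> simp [ost, update]) (by simp [ost]) (by decide)
  have h2 := Runs.loop_family (t := fun t => (t OR.Y).isSome)
    (body := (.seq (.mv .Y .inp) (.push .rN false) : Prog OR Bool))
    (fun i => ost (w.take i).reverse [] (zer i) [] [] [] [] [] (w.drop i) [] [] [] []) w.length
    (fun _ => 2)
    (by
      intro i hi
      simp only [Store.tops, ost]
      rw [List.drop_eq_getElem_cons hi]; rfl)
    (by simp [Store.tops, ost])
    (by
      intro i hi
      refine Runs.seq' (c₁ := 1) (c₂ := 1) (s₁ := ost (w.take (i + 1)).reverse [] (zer i) [] [] []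
        [] [] (w.drop (i + 1)) [] [] [] []) ?_ ?_ le_rfl
      · refine (Runs.mv_cons (r := OR.Y) (q := OR.inp) (by decide) (a := w[i])
          (l := w.drop (i + 1)) ?_).conv ?_ le_rfl
        · exact List.drop_eq_getElem_cons hi
        · have h5 : (w.take (i + 1)).reverse = w[i] :: (w.take i).reverse := by
            rw [List.take_succ_eq_append_getElem hi, List.reverse_append]; rfl
          rw [h5]
          funext r; cases r <;> simp [ost, update]
      · refine (Runs.push OR.rN false _).conv ?_ le_rfl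
        funext r; cases r <;> simp [ost, update, zer, List.replicate_succ])
  refine (h1.seq (h2.conv ?_ le_rfl)).weaken ?_
  · funext r; cases r <;> simp [ost]
  · simp; omega

/-! ### the ruler `⌊√N⌋` -/

/-- one tick -/
def sqBody : Prog OR Bool :=
  .seq (.mv .Z .A) (.peek .Z fun o => if o.isSome then .nop else
    .seq (.push .rn0 false) (.seq (.flip .A .Z) (.seq (.push .Z false) (.push .Z false))))

/-- `rn0 := zer ⌊√N⌋` -/
def sqrtProg : Prog OR Bool :=
  .seq (.push .Z false) (.seq (.forR .rN .q sqBody) (.seq (.clear .Z) (.clear .A)))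

/-- state after `i` ticks -/
def sqSt (inp : List Bool) (i : ℕ) (x y : List Bool) : Store OR Bool :=
  ost inp [] x (zer (Nat.sqrt i)) [] [] [] [] [] (zer ((Nat.sqrt i + 1) ^ 2 - i))
    (zer (i - Nat.sqrt i ^ 2)) y []

theorem zer_succ (n : ℕ) : zer (n + 1) = false :: zer n := rfl

theorem zer_zero : zer 0 = [] := rfl

@[simp] theorem zer_length (n : ℕ) : (zer n).length = n := by simp [zer]

theorem sqBody_runs (inp : List Bool) (i : ℕ) (x y : List Bool) :
    Runs sqBody (sqSt inp i x y) (sqSt inp (i + 1) x y) (sqCost i) := by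
  have h1 := Nat.sqrt_le' i
  have h2 := Nat.lt_succ_sqrt' i
  rw [Nat.succ_eq_add_one] at h2
  set k := Nat.sqrt i with hk
  obtain ⟨d, hd⟩ : ∃ d, (k + 1) ^ 2 - i = d + 1 := ⟨(k + 1) ^ 2 - i - 1, by omega⟩
  have e0 : sqSt inp i x y = ost inp [] x (zer k) [] [] [] [] [] (zer (d + 1))
    (zer (i - k ^ 2)) y [] := by rw [sqSt, ← hk, hd]
  have s1 : Runs (.mv .Z .A) (sqSt inp i x y) (ost inp [] x (zer k) [] [] [] [] [] (zer d)
    (zer (i + 1 - k ^ 2)) y []) 1 := by
    rw [e0]
    refine (Runs.mv_cons (r := OR.Z) (q := OR.A) (by decide) (a := false)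
          (l := zer d) rfl).conv ?_ le_rfl
    have : i + 1 - k ^ 2 = (i - k ^ 2) + 1 := by omega
    rw [this]
    funext r; cases r <;> simp [ost, update, zer_succ]
  rcases sqrt_succ_cases i with ⟨h3, h4⟩ | ⟨h3, h4⟩
  · rw [← hk] at h3 h4
    refine (s1.seq (Runs.peek (c := 1) ?_)).weaken ?_
    · obtain ⟨d', hd'⟩ : ∃ d', d = d' + 1 := ⟨d - 1, by omega⟩
      have : ((ost inp [] x (zer k) [] [] [] [] [] (zer d)
        (zer (i + 1 - k ^ 2)) y []) OR.Z).head? = some false := by
        rw [hd']; rfl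
      rw [this]
      refine (Runs.nop _).conv ?_ le_rfl
      rw [sqSt, h4]
      have : (k + 1) ^ 2 - (i + 1) = d := by omega
      rw [this]
    · rw [sqCost, ← hk, h4, if_pos rfl]; omega
  · rw [← hk] at h3 h4
    have hd0 : d = 0 := by omega
    subst hd0
    refine (s1.seq (Runs.peek (c := 4 * k + 10) ?_)).weaken ?_
    · have : ((ost inp [] x (zer k) [] [] [] [] [] (zer 0)
        (zer (i + 1 - k ^ 2)) y []) OR.Z).head? = none := rfl
      rw [this]
      have e1 : i + 1 - k ^ 2 = 2 * k + 1 := by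
        have : (k + 1) ^ 2 = k ^ 2 + 2 * k + 1 := by ring
        omega
      rw [e1]
      refine Runs.seq' (c₁ := 1) (c₂ := 4 * k + 9) (s₁ := ost inp [] x (zer (k + 1)) [] [] [] [] []
        [] (zer (2 * k + 1)) y []) ?_ (Runs.seq' (c₁ := 4 * k + 3) (c₂ := 2)
          (s₁ := ost inp [] x (zer (k + 1)) [] [] [] [] []
        (zer (2 * k + 1)) [] y []) ?_ (Runs.seq' (c₁ := 1) (c₂ := 1)
          (s₁ := ost inp [] x (zer (k + 1)) [] [] [] [] []
        (zer (2 * k + 2)) [] y []) ?_ ?_ le_rfl) (by omega)) (by omega)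
      · refine (Runs.push OR.rn0 false _).conv ?_ le_rfl
        funext r; cases r <;> simp [ost, update, zer_succ, zer_zero]
      · refine Runs.flip_eq ?_ ?_ (by decide)
        · funext r; cases r <;> simp [ost, update, zer]
        · simp [ost, zer]; omega
      · refine (Runs.push OR.Z false _).conv ?_ le_rfl
        funext r; cases r <;> simp [ost, update, zer_succ]
      · refine (Runs.push OR.Z false _).conv ?_ le_rfl
        rw [sqSt, h4]
        have e2 : (k + 1 + 1) ^ 2 - (i + 1) = 2 * k + 3 := by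
          have : (k + 1 + 1) ^ 2 = (k + 1) ^ 2 + 2 * k + 3 := by ring
          omega
        have e3 : i + 1 - (k + 1) ^ 2 = 0 := by omega
        rw [e2, e3]
        funext r; cases r <;> simp [ost, update, zer_succ, zer_zero]
    · rw [sqCost, ← hk, h4, if_neg (by omega)]
      omega

theorem sqrtProg_runs (inp : List Bool) (N : ℕ) :
    Runs sqrtProg (ost inp [] (zer N) [] [] [] [] [] [] [] [] [] [])
      (ost inp [] (zer N) (zer (Nat.sqrt N)) [] [] [] [] [] [] [] [] [])
      (30 * N + 10) := by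
  have h1 : Runs (.push .Z false) (ost inp [] (zer N) [] [] [] [] [] [] [] [] [] [])
      (sqSt inp 0 (zer N) []) 1 := by
    refine (Runs.push OR.Z false _).conv ?_ le_rfl
    funext r; cases r <;> simp [ost, sqSt, update, zer]
  have h2 : Runs (.forR .rN .q sqBody) (sqSt inp 0 (zer N) []) (sqSt inp N (zer N) [])
      (∑ i ∈ Finset.range N, sqCost i + 4 * N + 2) := by
    have hF : ∀ i x y x' y', update (update (sqSt inp i x y) OR.rN x') OR.q y'
        = sqSt inp i x' y' := by
      intro i x y x' y'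
      funext r; cases r <;> simp [ost, sqSt, update]
    have := Runs.forR_sum (r := OR.rN) (q := OR.q) (p := sqBody) (by decide) (a := false) (n := N)
      (fun i => sqSt inp i (zer N) []) sqCost rfl rfl
      (by
        intro i hi
        simp only [hF]
        exact sqBody_runs inp i _ _)
    simpa only [hF, zer_eq] using this
  have h3 : Runs (.clear .Z) (sqSt inp N (zer N) [])
      (ost inp [] (zer N) (zer (Nat.sqrt N)) [] [] [] [] [] []
        (zer (N - Nat.sqrt N ^ 2)) [] []) (4 * Nat.sqrt N + 3) := by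
    refine Runs.clear_eq ?_ ?_
    · funext r; cases r <;> simp [ost, sqSt, update]
    · have h2 := Nat.lt_succ_sqrt' N
      have h1 := Nat.sqrt_le' N
      rw [Nat.succ_eq_add_one] at h2
      have : (Nat.sqrt N + 1) ^ 2 = Nat.sqrt N ^ 2 + 2 * Nat.sqrt N + 1 := by ring
      simp only [sqSt, ost, zer_length]
      omega
  have h4 : Runs (.clear .A) (ost inp [] (zer N) (zer (Nat.sqrt N)) [] [] [] [] [] []
        (zer (N - Nat.sqrt N ^ 2)) [] []) (ost inp [] (zer N) (zer (Nat.sqrt N)) [] [] [] [] [] []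
        [] [] []) (4 * Nat.sqrt N + 1) := by
    refine Runs.clear_eq ?_ ?_
    · funext r; cases r <;> simp [ost, update]
    · have h2 := Nat.lt_succ_sqrt' N
      have h1 := Nat.sqrt_le' N
      rw [Nat.succ_eq_add_one] at h2
      have : (Nat.sqrt N + 1) ^ 2 = Nat.sqrt N ^ 2 + 2 * Nat.sqrt N + 1 := by ring
      simp only [ost, zer_length]
      omega
  refine (h1.seq (h2.seq (h3.seq h4))).weaken ?_
  have h5 := sum_sqCost N
  have h6 := Nat.sqrt_le' N
  have h7 : Nat.sqrt N ≤ N := Nat.sqrt_le_self N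
  nlinarith

/-! ### the rulers `2^L` and `L` -/

/-- `rn := zer 2^L, rL := zer L` with `L = ⌈log₂ n₀⌉`; the deficit `n₀ - 2^l` is kept on `A` -/
def powProg : Prog OR Bool :=
  .seq (.copy .rn0 .q .A) <| .seq (.pop .A) <| .seq (.push .rn false) <|
    .whileNE .A <| .seq (.push .rL false) <|
      .seq (.whileNE .rn (.seq (.mv .rn .Z) (.seq (.push .Z false) (.pop .A)))) (.flip .Z .rn)

theorem tail_zer (n : ℕ) : (zer n).tail = zer (n - 1) := by
  cases n <;> simp [zer]

theorem powBody_runs (inp rN rn0 : List Bool) (l k d : ℕ) :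
    Runs (.seq (.push .rL false) <|
      .seq (.whileNE .rn (.seq (.mv .rn .Z) (.seq (.push .Z false) (.pop .A)))) (.flip .Z .rn))
      (ost inp [] rN rn0 (zer k) (zer l) [] [] [] [] (zer d) [] [])
      (ost inp [] rN rn0 (zer (2 * k)) (zer (l + 1)) [] [] [] [] (zer (d - k)) [] [])
      (8 * k + 3) := by
  have h1 : Runs (.push .rL false) (ost inp [] rN rn0 (zer k) (zer l) [] [] [] [] (zer d) [] [])
      (ost inp [] rN rn0 (zer k) (zer (l + 1)) [] [] [] [] (zer d) [] []) 1 := by
    refine (Runs.push OR.rL false _).conv ?_ le_rfl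
    funext r; cases r <;> simp [ost, update, zer_succ]
  have h2 := Runs.loop_family (t := fun t => (t OR.rn).isSome)
    (body := (.seq (.mv .rn .Z) (.seq (.push .Z false) (.pop .A)) : Prog OR Bool))
    (fun i => ost inp [] rN rn0 (zer (k - i)) (zer (l + 1)) [] [] [] (zer (2 * i)) (zer (d - i))
      [] []) k (fun _ => 3)
    (by
      intro i hi
      simp only [Store.tops, ost]
      rw [show k - i = (k - i - 1) + 1 by omega, zer_succ]; rfl)
    (by simp [Store.tops, ost, zer])
    (by
      intro i hi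
      refine Runs.seq' (c₁ := 1) (c₂ := 2) (s₁ := ost inp [] rN rn0 (zer (k - (i + 1)))
        (zer (l + 1)) [] [] [] (zer (2 * i + 1)) (zer (d - i)) [] []) ?_
        (Runs.seq' (c₁ := 1) (c₂ := 1) (s₁ := ost inp [] rN rn0 (zer (k - (i + 1)))
        (zer (l + 1)) [] [] [] (zer (2 * i + 2)) (zer (d - i)) [] []) ?_ ?_ le_rfl) le_rfl
      · refine (Runs.mv_cons (r := OR.rn) (q := OR.Z) (by decide) (a := false)
          (l := zer (k - (i + 1))) ?_).conv ?_ le_rfl
        · simp only [ost]
          rw [show k - i = (k - (i + 1)) + 1 by omega, zer_succ]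
        · funext r; cases r <;> simp [ost, update, zer_succ]
      · refine (Runs.push OR.Z false _).conv ?_ le_rfl
        funext r; cases r <;> simp [ost, update, zer_succ]
      · refine (Runs.pop OR.A _).conv ?_ le_rfl
        funext r; cases r <;> simp [ost, update, tail_zer, Nat.mul_add, Nat.sub_sub])
  have h3 : Runs (.flip .Z .rn) (ost inp [] rN rn0 (zer (k - k)) (zer (l + 1)) [] [] []
      (zer (2 * k)) (zer (d - k)) [] [])
      (ost inp [] rN rn0 (zer (2 * k)) (zer (l + 1)) [] [] [] [] (zer (d - k)) [] [])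
      (4 * k + 1) := by
    refine Runs.flip_eq ?_ ?_ (by decide)
    · funext r; cases r <;> simp [ost, update, zer]
    · simp only [ost, zer_length]; omega
  refine (h1.seq (Runs.seq (s₁ := ost inp [] rN rn0 (zer (k - k)) (zer (l + 1)) [] [] []
      (zer (2 * k)) (zer (d - k)) [] []) (h2.conv' ?_) h3)).weaken ?_
  · funext r; cases r <;> simp [ost, zer]
  · simp only [Finset.sum_const, Finset.card_range, smul_eq_mul]; omega

theorem pow_clog_le (n : ℕ) : 2 ^ Nat.clog 2 n ≤ 2 * n + 1 := by
  rcases Nat.lt_or_ge 1 n with h | h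
  · have h1 := Nat.pow_pred_clog_lt_self (b := 2) (by norm_num) h
    have h2 : 0 < Nat.clog 2 n := Nat.clog_pos (by norm_num) h
    obtain ⟨k, hk⟩ : ∃ k, Nat.clog 2 n = k + 1 := ⟨Nat.clog 2 n - 1, by omega⟩
    rw [hk] at h1 ⊢
    simp only [Nat.pred_succ] at h1
    rw [pow_succ]
    omega
  · rw [Nat.clog_of_right_le_one h]
    simp

theorem sum_two_pow (L : ℕ) : ∑ l ∈ Finset.range L, 2 ^ l + 1 = 2 ^ L := by
  induction L with
  | zero => simp
  | succ L ih => rw [Finset.sum_range_succ, pow_succ]; omega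

theorem powProg_runs (inp rN : List Bool) (n₀ : ℕ) :
    Runs powProg (ost inp [] rN (zer n₀) [] [] [] [] [] [] [] [] [])
      (ost inp [] rN (zer n₀) (zer (2 ^ Nat.clog 2 n₀)) (zer (Nat.clog 2 n₀)) [] [] [] [] [] [] [])
      (30 * n₀ + 20) := by
  set L := Nat.clog 2 n₀ with hL
  have h1 : Runs (.copy .rn0 .q .A) (ost inp [] rN (zer n₀) [] [] [] [] [] [] [] [] [])
      (ost inp [] rN (zer n₀) [] [] [] [] [] [] (zer n₀) [] []) (4 * n₀ + 2) :=
    Runs.copy_eq rfl (by funext r; cases r <;> simp [ost, update]) (by simp [ost]) (by decide) (by decide) (by decide)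
  have h2 : Runs (.pop .A) (ost inp [] rN (zer n₀) [] [] [] [] [] [] (zer n₀) [] [])
      (ost inp [] rN (zer n₀) [] [] [] [] [] [] (zer (n₀ - 1)) [] []) 1 := by
    refine (Runs.pop OR.A _).conv ?_ le_rfl
    funext r; cases r <;> simp [ost, update, tail_zer]
  have h3 : Runs (.push .rn false) (ost inp [] rN (zer n₀) [] [] [] [] [] [] (zer (n₀ - 1)) [] [])
      (ost inp [] rN (zer n₀) (zer 1) [] [] [] [] [] (zer (n₀ - 1)) [] []) 1 := by
    refine (Runs.push OR.rn false _).conv ?_ le_rfl
    funext r; cases r <;> simp [ost, update, zer]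
  have h4 := Runs.loop_family (t := fun t => (t OR.A).isSome)
    (body := (.seq (.push .rL false) <|
      .seq (.whileNE .rn (.seq (.mv .rn .Z) (.seq (.push .Z false) (.pop .A)))) (.flip .Z .rn) :
        Prog OR Bool))
    (fun l => ost inp [] rN (zer n₀) (zer (2 ^ l)) (zer l) [] [] [] [] (zer (n₀ - 2 ^ l)) [] [])
    L (fun l => 8 * 2 ^ l + 3)
    (by
      intro l hl
      have : 2 ^ l < n₀ := Nat.pow_lt_of_lt_clog hl
      simp only [Store.tops, ost]
      rw [show n₀ - 2 ^ l = (n₀ - 2 ^ l - 1) + 1 by omega, zer_succ]; rfl)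
    (by
      have : n₀ ≤ 2 ^ L := Nat.le_pow_clog (by norm_num) _
      simp only [Store.tops, ost]
      rw [show n₀ - 2 ^ L = 0 by omega]; rfl)
    (by
      intro l hl
      refine (powBody_runs inp rN (zer n₀) l (2 ^ l) (n₀ - 2 ^ l)).conv ?_ le_rfl
      rw [pow_succ, Nat.sub_sub, Nat.mul_two, Nat.two_mul])
  have h5 : n₀ - 2 ^ L = 0 := by
    have : n₀ ≤ 2 ^ L := Nat.le_pow_clog (by norm_num) _
    omega
  refine (h1.seq (h2.seq (h3.seq ((h4.conv' ?_).conv ?_ le_rfl)))).weaken ?_
  · funext r; cases r <;> simp [ost, zer]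
  · rw [h5]; rfl
  · have h6 := pow_clog_le n₀
    have h7 := sum_two_pow L
    have h8 : ∑ i ∈ Finset.range L, (8 * 2 ^ i + 3 + 1)
        = 8 * ∑ i ∈ Finset.range L, 2 ^ i + 4 * L := by
      rw [Finset.mul_sum, ← Nat.mul_comm L 4, ← smul_eq_mul L 4, ← Finset.card_range L,
        ← Finset.sum_const, Finset.card_range, ← Finset.sum_add_distrib]
    have h9 : L ≤ n₀ := by
      rw [hL]
      exact Nat.clog_le_of_le_pow (Nat.lt_two_pow_self).le
    rw [← hL] at h6
    rw [h8]
    omega

/-! ### the ruler `n - n₀` -/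

/-- `rPad := zer (n - n₀)` -/
def subProg : Prog OR Bool := .seq (.copy .rn .q .rPad) (.skip .rn0 .q .rPad)

theorem subProg_runs (inp rN rL : List Bool) {n₀ n : ℕ} (h : n₀ ≤ n) :
    Runs subProg (ost inp [] rN (zer n₀) (zer n) rL [] [] [] [] [] [] [])
      (ost inp [] rN (zer n₀) (zer n) rL (zer (n - n₀)) [] [] [] [] [] [])
      (9 * n + 4) := by
  have h1 : Runs (.copy .rn .q .rPad) (ost inp [] rN (zer n₀) (zer n) rL [] [] [] [] [] [] [])
      (ost inp [] rN (zer n₀) (zer n) rL (zer n) [] [] [] [] [] []) (4 * n + 2) :=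
    Runs.copy_eq rfl (by funext r; cases r <;> simp [ost, update]) (by simp [ost]) (by decide) (by decide) (by decide)
  have h2 : Runs (.skip .rn0 .q .rPad)
      (ost inp [] rN (zer n₀) (zer n) rL (zer n) [] [] [] [] [] [])
      (ost inp [] rN (zer n₀) (zer n) rL (zer (n - n₀)) [] [] [] [] [] []) (5 * n₀ + 2) := by
    refine Runs.skip_eq n₀ (zer n₀) (zer (n - n₀)) rfl rfl ?_ (by simp) ?_ le_rfl (by decide) (by decide) (by decide)
    · simp only [ost, zer, List.replicate_append_replicate]
      congr 1; omega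
    · funext r; cases r <;> simp [ost, update]
  exact (h1.seq h2).weaken (by omega)

/-! ### the whole input phase -/

/-- embedding of the registers of the padding programs -/
def prEmb : Emb PR OR Bool Bool where
  reg
    | .src => .inp | .dst => .X | .Y => .Y | .Z => .Z | .n => .rn | .n0 => .rn0 | .D => .rPad
    | .A => .A | .q => .q | .q' => .q'
  regInv
    | .inp => some .src | .X => some .dst | .Y => some .Y | .Z => some .Z | .rn => some .n
    | .rn0 => some .n0 | .rPad => some .D | .A => some .A | .q => some .q | .q' => some .q'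
    | _ => none
  reg_inv := by intro r; cases r <;> rfl
  reg_eq := by intro r r' h; cases r <;> simp at h <;> subst h <;> rfl
  sym := id
  symInv := some
  sym_inv := fun _ => rfl

/-- the input phase -/
def inProg (s : ℕ) : Prog OR Bool :=
  .seq lenProg <| .seq sqrtProg <| .seq powProg <| .seq subProg <|
    .seq (H933.linRuler .rN .rM .Z 128 s) (padProg.emb prEmb)

theorem inProg_runs (s : ℕ) (w : List Bool) :
    Runs (inProg s) (ost w.reverse [] [] [] [] [] [] [] [] [] [] [] [])
      (ost [] (padL (Nat.sqrt w.length) (2 ^ Nat.clog 2 (Nat.sqrt w.length)) w) (zer w.length)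
        (zer (Nat.sqrt w.length)) (zer (2 ^ Nat.clog 2 (Nat.sqrt w.length)))
        (zer (Nat.clog 2 (Nat.sqrt w.length)))
        (zer (2 ^ Nat.clog 2 (Nat.sqrt w.length) - Nat.sqrt w.length))
        (zer (128 * w.length + s)) [] [] [] [] [])
      (1000 * w.length + s + 1000) := by
  set N := w.length with hN
  set n₀ := Nat.sqrt N with hn₀
  set L := Nat.clog 2 n₀ with hL
  have hn : n₀ ≤ 2 ^ L := Nat.le_pow_clog (by norm_num) _
  have h1 := lenProg_runs w
  rw [← hN] at h1
  have h2 := sqrtProg_runs w.reverse N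
  rw [← hn₀] at h2
  have h3 := powProg_runs w.reverse (zer N) n₀
  rw [← hL] at h3
  have h4 := subProg_runs w.reverse (zer N) (zer L) hn
  have h5 : Runs (H933.linRuler .rN .rM .Z 128 s)
      (ost w.reverse [] (zer N) (zer n₀) (zer (2 ^ L)) (zer L) (zer (2 ^ L - n₀)) [] [] [] [] [] [])
      (ost w.reverse [] (zer N) (zer n₀) (zer (2 ^ L)) (zer L) (zer (2 ^ L - n₀))
        (zer (128 * N + s)) [] [] [] [] []) (133 * N + s + 4) := by
    refine (H933.runs_linRuler (by decide) (by decide) (by decide) 128 s _ rfl).conv ?_ ?_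
    · funext r; cases r <;> simp [ost, update]
    · simp [ost]
  have hw : n₀ * n₀ ≤ w.length := by rw [hn₀, ← hN]; exact Nat.sqrt_le N
  have h6 : Runs (padProg.emb prEmb)
      (ost w.reverse [] (zer N) (zer n₀) (zer (2 ^ L)) (zer L) (zer (2 ^ L - n₀))
        (zer (128 * N + s)) [] [] [] [] [])
      (ost [] (padL n₀ (2 ^ L) w) (zer N) (zer n₀) (zer (2 ^ L)) (zer L) (zer (2 ^ L - n₀))
        (zer (128 * N + s)) [] [] [] [] []) (4 * N + 30 * (2 ^ L * 2 ^ L) + 10) := by
    refine Runs.emb prEmb (padProg_runs hn hw) ?_ ?_ ?_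
    · intro r; cases r <;> simp [ost, pst, prEmb]
    · intro r; cases r <;> simp [ost, pst, prEmb]
    · intro r hr; cases r <;> simp [prEmb] at hr <;> rfl
  refine (h1.seq (h2.seq (h3.seq (h4.seq (h5.seq h6))))).weaken ?_
  have e1 := pow_clog_le n₀
  rw [← hL] at e1
  have e2 : n₀ ≤ N := Nat.sqrt_le_self N
  have e3 : n₀ * n₀ ≤ N := Nat.sqrt_le N
  have e4 : 2 ^ L * 2 ^ L ≤ (2 * n₀ + 1) * (2 * n₀ + 1) := Nat.mul_le_mul e1 e1
  nlinarith

/-! ### over the global registers -/

/-- embedding of the registers of the outer phases -/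
def orEmb : Emb OR Reg Bool Bool where
  reg
    | .inp => .inp | .X => .X | .rN => .rN | .rn0 => .rn0 | .rn => .rn | .rL => .rL
    | .rPad => .rPad | .rM => .rM | .Y => .u0 | .Z => .u1 | .A => .u2 | .q => .u3 | .q' => .u4
  regInv
    | .inp => some .inp | .X => some .X | .rN => some .rN | .rn0 => some .rn0 | .rn => some .rn
    | .rL => some .rL | .rPad => some .rPad | .rM => some .rM | .u0 => some .Y | .u1 => some .Z
    | .u2 => some .A | .u3 => some .q | .u4 => some .q'
    | _ => none
  reg_inv := by intro r; cases r <;> rfl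
  reg_eq := by intro r r' h; cases r <;> simp at h <;> subst h <;> rfl
  sym := id
  symInv := some
  sym_inv := fun _ => rfl

end H51

/-- OUTER, input phase -/
def outerIn (s : ℕ) : Prog Reg Bool := (H51.inProg s).emb H51.orEmb

/-- the store after the input phase, with the matrix `X` -/
def outerSt (s N : ℕ) (X : List Bool) : Store Reg Bool
  | .X => X
  | .rN => zer N
  | .rn0 => zer (Nat.sqrt N)
  | .rn => zer (2 ^ Nat.clog 2 (Nat.sqrt N))
  | .rL => zer (Nat.clog 2 (Nat.sqrt N))
  | .rPad => zer (2 ^ Nat.clog 2 (Nat.sqrt N) - Nat.sqrt N)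
  | .rM => zer (128 * N + s)
  | _ => []

/-- **Input phase.** -/
theorem outerIn_runs (s : ℕ) (w : List Bool) :
    Runs (outerIn s) (Function.update (fun _ => []) .inp w.reverse)
      (outerSt s w.length
        (H51.padL (Nat.sqrt w.length) (2 ^ Nat.clog 2 (Nat.sqrt w.length)) w))
      (1000 * w.length + s + 1000) := by
  refine Runs.emb H51.orEmb (H51.inProg_runs s w) ?_ ?_ ?_
  · intro r; cases r <;> simp [H51.ost, H51.orEmb, Function.update]
  · intro r; cases r <;> simp [H51.ost, H51.orEmb, outerSt]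
  · intro r hr; cases r <;> simp [H51.orEmb] at hr <;> simp [outerSt, Function.update]

namespace H51

/-- registers of the output phase -/
def outEmb : Emb PR Reg Bool Bool where
  reg
    | .src => .X | .dst => .outp | .Y => .u0 | .Z => .u1 | .n => .rn | .n0 => .rn0 | .D => .rPad
    | .A => .u2 | .q => .u3 | .q' => .u4
  regInv
    | .X => some .src | .outp => some .dst | .u0 => some .Y | .u1 => some .Z | .rn => some .n
    | .rn0 => some .n0 | .rPad => some .D | .u2 => some .A | .u3 => some .q | .u4 => some .q'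
    | _ => none
  reg_inv := by intro r; cases r <;> rfl
  reg_eq := by intro r r' h; cases r <;> simp at h <;> subst h <;> rfl
  sym := id
  symInv := some
  sym_inv := fun _ => rfl

end H51

/-- OUTER, output phase -/
def outerOut : Prog Reg Bool := H51.unpadProg.emb H51.outEmb

/-- `⌊√N⌋ ≤ n` -/
theorem sqrt_le_outer (N : ℕ) : Nat.sqrt N ≤ 2 ^ Nat.clog 2 (Nat.sqrt N) :=
  Nat.le_pow_clog (by norm_num) _

/-- `n ^ 2 ≤ 4 N` -/
theorem outer_sq_le {N : ℕ} (hN : 1 ≤ N) :
    2 ^ Nat.clog 2 (Nat.sqrt N) * 2 ^ Nat.clog 2 (Nat.sqrt N) ≤ 4 * N := by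
  have h0 : 1 ≤ Nat.sqrt N := Nat.sqrt_pos.2 hN
  have h1 : Nat.sqrt N * Nat.sqrt N ≤ N := Nat.sqrt_le N
  have h2 : 2 ^ Nat.clog 2 (Nat.sqrt N) ≤ 2 * Nat.sqrt N := by
    rcases Nat.lt_or_ge 1 (Nat.sqrt N) with h | h
    · have h1 := Nat.pow_pred_clog_lt_self (b := 2) (by norm_num) h
      have h2 : 0 < Nat.clog 2 (Nat.sqrt N) := Nat.clog_pos (by norm_num) h
      obtain ⟨k, hk⟩ : ∃ k, Nat.clog 2 (Nat.sqrt N) = k + 1 :=
        ⟨Nat.clog 2 (Nat.sqrt N) - 1, by omega⟩
      rw [hk] at h1 ⊢
      simp only [Nat.pred_succ] at h1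
      rw [pow_succ]
      omega
    · rw [Nat.clog_of_right_le_one h]
      omega
  have h3 := Nat.mul_le_mul h2 h2
  nlinarith

/-- **Output phase.** -/
theorem outerOut_runs (s N : ℕ) {X : List Bool}
    (hX : X.length = 2 ^ Nat.clog 2 (Nat.sqrt N) * 2 ^ Nat.clog 2 (Nat.sqrt N)) (hN : 1 ≤ N) :
    Runs outerOut (outerSt s N X)
      (Function.update (outerSt s N []) .outp
        (H51.unpadL (Nat.sqrt N) (2 ^ Nat.clog 2 (Nat.sqrt N)) X)) (120 * N + 10) := by
  have h := H51.unpadProg_runs (sqrt_le_outer N) hX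
  refine (Runs.emb H51.outEmb h ?_ ?_ ?_).weaken ?_
  · intro r; cases r <;> simp [H51.pst, H51.outEmb, outerSt]
  · intro r; cases r <;> simp [H51.pst, H51.outEmb, outerSt, Function.update]
  · intro r hr; cases r <;> simp [H51.outEmb] at hr <;> simp [outerSt, Function.update]
  · have := outer_sq_le hN
    omega

end Vale.Agent.P338
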