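import Vale.Agent.P338.H51.MainD1
import Vale.Agent.P338.H373.TabRD
import Vale.Agent.P338.H373.PwmInv
import Vale.Agent.P338.H666.NumRD
import Vale.Agent.P338.H763.FastD
import Vale.Agent.P338.H932.CostD
import Vale.Agent.P338.H933.MainGlue

/-!
# Stage 2: the main program
-/

namespace Vale.Agent.P338

open Function (update)

namespace H51

open Vale.Agent.P338.H932 Vale.Agent.P338.H811

/-- What is needed from the program computing `2^W / p` and the first entry of the third table. -/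
def MuSpec (MU : Prog RD Bool) (K : ℕ) : Prop :=
  ∀ (v : DV) (p W b : ℕ), 1 < p → p % 2 = 1 → 2 * p ≤ 2 ^ W → b + 1 ≤ W → v.rW = zer W → v.rb = zer b →
    v.np = lbits W p → v.nmu = [] → v.nT3 = [] → v.nDe = [] →
    Runs MU v.st ({ v with nmu := lbits W (2 ^ W / p),
                           nT3 := lbits W ((p - 1) * (p / 2 ^ (b + 1)) % p) } : DV).st
      (K * (W * W))

/-- **The main program of stage 2.** -/
noncomputable def mainD (A : Machine) (MU : Prog RD Bool) (s0 : ℕ) :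
    Prog (RD ⊕ Sim.AReg A) (Bool ⊕ Sim.ASym A) :=
  .seq ((preD s0).lift _ _) <| .seq (H666.ROOT.lift _ _) <| .seq (MU.lift _ _) <|
  .seq (D.TABLES.lift _ _) <| .seq ((H763.rot1P.ren rR3).lift _ _) <|
  .seq (FD.FASTD A) (postD.lift _ _)

/-- cost of the main program -/
noncomputable def costMD (A : Machine) (K s0 N : ℕ) : ℕ :=
  20000000 * (D.nn (Nat.sqrt N) * D.nn (Nat.sqrt N)
        + D.pp (Nat.sqrt N) * D.pp (Nat.sqrt N) * (D.WW (Nat.sqrt N) * D.WW (Nat.sqrt N))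
        + N + s0 + 1)
  + 200 * (D.pp (Nat.sqrt N) * D.pp (Nat.sqrt N) * (D.WW (Nat.sqrt N) * D.WW (Nat.sqrt N)))
  + K * (D.WW (Nat.sqrt N) * D.WW (Nat.sqrt N))
  + 2000 * (D.pp (Nat.sqrt N) * D.pp (Nat.sqrt N) * (D.WW (Nat.sqrt N) * D.WW (Nat.sqrt N)))
  + (11 * (D.nn (Nat.sqrt N) * D.nn (Nat.sqrt N)) + 10 * D.nn (Nat.sqrt N) + 4)
  + (12 * mulTime A (CD * N + s0)
      + 24 * ((D.pp (Nat.sqrt N) - 1) * D.nn (Nat.sqrt N) * mulTime A (D.WW (Nat.sqrt N)))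
      + 400 * (CD * N + s0))
  + (300 * ((D.be (Nat.sqrt N) + 1) * (D.nn (Nat.sqrt N) * D.nn (Nat.sqrt N))) + 20)

theorem mainD_runs {A : Machine} (hA : Multiplies A) {MU : Prog RD Bool} {K : ℕ}
    (hMU : MuSpec MU K) (s0 : ℕ) (w : List Bool) (hw : w ≠ []) :
    ∃ v' : DV, v'.outp = transposeWord (Nat.sqrt w.length) w ∧
      LRuns (mainD A MU s0) ({ inp := w.reverse } : DV).st v'.st (costMD A K s0 w.length) := by
  obtain ⟨N, hN⟩ : ∃ N, N = w.length := ⟨_, rfl⟩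
  have hN1 : 1 ≤ N := by rw [hN]; exact List.length_pos_iff.2 hw
  obtain ⟨n0, hn0⟩ : ∃ n0, n0 = Nat.sqrt N := ⟨_, rfl⟩
  have hn00 : n0 ≠ 0 := by rw [hn0]; exact (Nat.sqrt_pos.2 hN1).ne'
  have hnN : n0 * n0 ≤ N := by rw [hn0]; exact Nat.sqrt_le N
  have hpp := D.pp_prime n0
  have : Fact (D.pp n0).Prime := ⟨hpp⟩
  have hp1 := hpp.one_lt
  have hodd : D.pp n0 % 2 = 1 := by
    have h1 := D.two_pow_le_pp n0
    have h2 : 2 ^ 2 ≤ 2 ^ (2 * D.bb n0 + 3) := Nat.pow_le_pow_right (by norm_num) (by omega)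
    rcases hpp.eq_two_or_odd with h | h
    · omega
    · exact h
  obtain ⟨g, hg, hord⟩ := H666.lroot_unit hpp
  have hWl : 10 * (D.kk n0 + 9) ≤ D.WW n0 := by unfold D.WW; omega
  have hpW : 2 * D.pp n0 ≤ 2 ^ D.WW n0 := by
    have h1 := D.pp_le' n0
    calc 2 * D.pp n0 ≤ 2 * 2 ^ (D.kk n0 + 9) := Nat.mul_le_mul_left _ h1
      _ = 2 ^ (D.kk n0 + 9 + 1) := by rw [pow_succ]; ring
      _ ≤ 2 ^ D.WW n0 := Nat.pow_le_pow_right (by norm_num) (by omega)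
  have hbW : D.bb n0 + 1 ≤ D.WW n0 := by
    have := D.bb_succ_le n0
    omega
  have hnn : D.nn n0 = (D.pp n0 - 1) * D.bb n0 := rfl
  have hm : 4 * (D.pp n0 - 1) * ((D.pp n0 - 1) * D.bb n0) * D.WW n0 ≤ CD * N + s0 := by
    have h1 := D.operand_le n0 hn00
    have e : 4 * (D.pp n0 - 1) * ((D.pp n0 - 1) * D.bb n0) * D.WW n0
        = 2 * (D.pp n0 - 1) * (D.nn n0 * (2 * D.WW n0)) := by rw [hnn]; ring
    have hCD : CD * N = 16777216 * N := rfl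
    rw [e, hCD]
    omega
  have hnn1 : 0 < D.nn n0 := by
    have := D.le_nn n0; omega
  -- the successive data
  obtain ⟨X0, hX0⟩ : ∃ X0, X0 = padL n0 (D.nn n0) w := ⟨_, rfl⟩
  have l0 : X0.length = D.nn n0 * D.nn n0 := by
    rw [hX0, padL_eq_matL (D.le_nn n0) (by rw [← hN]; exact hnN), matL_length]
  have l1 : (E.rot1 (D.nn n0) X0).length = D.nn n0 * D.nn n0 := length_rot1 l0
  obtain ⟨X2, hX2⟩ : ∃ X2, X2 = D.shearHi (D.bb n0) (D.pp n0) (E.rot1 (D.nn n0) X0) := ⟨_, rfl⟩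
  have l2 : X2.length = D.nn n0 * D.nn n0 := by
    rw [hX2, H811.length_shearHi]; rfl
  have hfast : D.fast (CD * N + s0) (D.WW n0) (D.bb n0) (D.pp n0) (H666.lroot (D.pp n0))
      (E.rot1 (D.nn n0) X0) = X2 := by
    rw [hX2]
    exact H811.fastD_eq_shearHi hg hord (D.bb_pos n0) (D.pp_le' n0) (D.bb_succ_le n0) hWl
      (D.two_pow_le_pp n0) hm l1
  -- input phase
  have r0 := preD_runs s0 w hw
  rw [← hN, ← hn0, ← hX0] at r0
  have hPost := fun (v : DV) => postD_runs v (D.le_nn n0) hnn1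
    (⟨D.pp n0 - 1, by rw [hnn, D.bb, Nat.mul_comm]⟩ : 2 ^ D.be n0 ∣ D.nn n0)
  have hfin : unpadL n0 (D.nn n0) (E.rot2 (D.nn n0) (bitsDown (D.nn n0) (D.be n0) X2))
      = transposeWord n0 w := by
    rw [hX2, hX0, padL_eq_matL (D.le_nn n0) (by rw [← hN]; exact hnN)]
    have := H811.transD' (n := D.nn n0) (p := D.pp n0) (β := D.be n0) hnn hp1 (padM n0 w)
    rw [D.bb, this]
    exact unpadL_transpose (D.le_nn n0) w fun i j _ _ => rfl
  subst hn0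
  -- numbers
  let v0 : DV := preV s0 N X0
  let v1 : DV := { v0 with
    np := lbits (D.WW (Nat.sqrt N)) (D.pp (Nat.sqrt N))
    nom := lbits (D.WW (Nat.sqrt N)) (H666.lroot (D.pp (Nat.sqrt N)))
    nomi := lbits (D.WW (Nat.sqrt N))
      (H666.lroot (D.pp (Nat.sqrt N)) ^ (D.pp (Nat.sqrt N) - 2) % D.pp (Nat.sqrt N)) }
  have r1 : Runs H666.ROOT v0.st v1.st _ := H666.ROOT_runs hpp hpW v0 rfl rfl rfl rfl rfl
  let v2 : DV := { v1 with
    nmu := lbits (D.WW (Nat.sqrt N)) (2 ^ D.WW (Nat.sqrt N) / D.pp (Nat.sqrt N))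
    nT3 := lbits (D.WW (Nat.sqrt N)) ((D.pp (Nat.sqrt N) - 1) *
      (D.pp (Nat.sqrt N) / 2 ^ (D.bb (Nat.sqrt N) + 1)) % D.pp (Nat.sqrt N)) }
  have r2 : Runs MU v1.st v2.st _ := hMU v1 _ _ _ hp1 hodd hpW hbW rfl rfl rfl rfl rfl rfl
  have hT : D.TPre v2 (D.WW (Nat.sqrt N)) (D.pp (Nat.sqrt N)) (H666.lroot (D.pp (Nat.sqrt N)))
      (D.bb (Nat.sqrt N)) :=
    ⟨rfl, rfl, rfl, rfl, by rw [D.pwm_neg_one hpp.two_le], by rw [D.T3_zero hg]⟩
  let v3 : DV := { v2 with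
    tT1 := cat (D.pp (Nat.sqrt N) - 1) fun i => lbits (D.WW (Nat.sqrt N))
      (D.T1 (D.pp (Nat.sqrt N)) (H666.lroot (D.pp (Nat.sqrt N))) i)
    tH1 := cat (2 * (D.pp (Nat.sqrt N) - 1)) fun m => lbits (D.WW (Nat.sqrt N))
      (D.H1 (D.pp (Nat.sqrt N)) (H666.lroot (D.pp (Nat.sqrt N))) m)
    tT2 := cat (D.pp (Nat.sqrt N) - 1) fun k => cat (D.pp (Nat.sqrt N) - 1) fun d =>
      lbits (D.WW (Nat.sqrt N)) (D.T2 (D.pp (Nat.sqrt N)) (H666.lroot (D.pp (Nat.sqrt N))) k d)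
    tH2 := cat (2 * (D.pp (Nat.sqrt N) - 1)) fun m => lbits (D.WW (Nat.sqrt N))
      (D.H2 (D.pp (Nat.sqrt N)) (H666.lroot (D.pp (Nat.sqrt N))) m)
    tT3 := cat (D.pp (Nat.sqrt N) - 1) fun i => lbits (D.WW (Nat.sqrt N))
      (D.T3 (D.pp (Nat.sqrt N)) (H666.lroot (D.pp (Nat.sqrt N))) (D.bb (Nat.sqrt N)) i) }
  have r3 : Runs D.TABLES v2.st v3.st _ :=
    D.TABLES_runs hg (H666.lroot_lt hpp) (by omega) hpW v2 hT rfl rfl rfl rfl rfl
  let v4 : DV := { v3 with X := E.rot1 (D.nn (Nat.sqrt N)) X0 }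
  have r4 : Runs (H763.rot1P.ren rR3) v3.st v4.st _ := rot1D_runs v3 l0 rfl
  let v5 : DV := { v4 with X := X2, tT1 := [], tH1 := [], tT2 := [], tH2 := [], tT3 := [] }
  have r5 : LRuns (FD.FASTD A) v4.st v5.st (12 * mulTime A (CD * N + s0)
      + 24 * ((D.pp (Nat.sqrt N) - 1) * D.nn (Nat.sqrt N) * mulTime A (D.WW (Nat.sqrt N)))
      + 400 * (CD * N + s0)) := by
    have h := FD.FASTD_runs (v := v4) (W := D.WW (Nat.sqrt N)) (b := D.bb (Nat.sqrt N))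
      (p := D.pp (Nat.sqrt N)) (m := CD * N + s0) (om := H666.lroot (D.pp (Nat.sqrt N))) hA
      ⟨rfl, rfl, rfl, rfl, rfl, rfl, rfl, rfl, rfl⟩ (by omega) (D.bb_pos _) (by omega) hp1 l1 hm
      rfl rfl rfl rfl rfl rfl rfl rfl rfl
    have e : D.fast (CD * N + s0) (D.WW (Nat.sqrt N)) (D.bb (Nat.sqrt N)) (D.pp (Nat.sqrt N))
      (H666.lroot (D.pp (Nat.sqrt N))) v4.X = X2 := hfast
    rw [e] at h
    exact h
  let v6 : DV := { v5 with
    X := []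
    outp := unpadL (Nat.sqrt N) (D.nn (Nat.sqrt N)) (E.rot2 (D.nn (Nat.sqrt N))
      (bitsDown (D.nn (Nat.sqrt N)) (D.be (Nat.sqrt N)) X2)) }
  have r6 : Runs postD v5.st v6.st _ := hPost v5 l2 rfl rfl rfl rfl rfl rfl rfl rfl
  refine ⟨v6, ?_, ?_⟩
  · rw [← hN]; exact hfin
  · rw [← hN]
    refine ((LRuns.base r0).seq ((LRuns.base r1).seq ((LRuns.base r2).seq ((LRuns.base r3).seq
      ((LRuns.base r4).seq (r5.seq (LRuns.base r6))))))).weaken ?_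
    rw [costMD]
    omega

theorem costMD_le (A : Machine) (K s0 N : ℕ) (hN : 1 ≤ N) :
    costMD A K s0 N ≤ (10000000000 + K) * (mulTime A (CD * N + s0)
      + D.pp (Nat.sqrt N) * D.nn (Nat.sqrt N)
        * (mulTime A (D.WW (Nat.sqrt N)) + D.WW (Nat.sqrt N))
      + (D.be (Nat.sqrt N) + 1) * (D.nn (Nat.sqrt N) * D.nn (Nat.sqrt N))
      + D.pp (Nat.sqrt N) * D.pp (Nat.sqrt N) * (D.WW (Nat.sqrt N) * D.WW (Nat.sqrt N))
      + N + s0 + 1) := by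
  rw [costMD]
  set n0 := Nat.sqrt N with hn0
  have hn00 : n0 ≠ 0 := (Nat.sqrt_pos.2 hN).ne'
  have hp1 := (D.pp_prime n0).one_lt
  obtain ⟨T, hT⟩ : ∃ T, T = mulTime A (CD * N + s0) := ⟨_, rfl⟩
  obtain ⟨n, hn⟩ : ∃ n, n = D.nn n0 := ⟨_, rfl⟩
  obtain ⟨W, hW⟩ : ∃ W, W = D.WW n0 := ⟨_, rfl⟩
  obtain ⟨p, hp⟩ : ∃ p, p = D.pp n0 := ⟨_, rfl⟩
  obtain ⟨t, ht⟩ : ∃ t, t = D.be n0 := ⟨_, rfl⟩
  obtain ⟨U, hU⟩ : ∃ U, U = mulTime A W := ⟨_, rfl⟩
  have hCD : CD * N = 16777216 * N := rfl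
  rw [← hp] at hp1
  rw [← hn, ← hW, ← hp, ← ht, ← hT, ← hU, hCD]
  have g1 : n * n ≤ (t + 1) * (n * n) := Nat.le_mul_of_pos_left _ (by omega)
  have g2 : W * W ≤ p * p * (W * W) := Nat.le_mul_of_pos_left _ (Nat.mul_pos (by omega) (by omega))
  have g3 : n ≤ n * n := Nat.le_mul_self n
  have g4 : (p - 1) * n * U ≤ p * n * (U + W) := by
    apply Nat.mul_le_mul (Nat.mul_le_mul_right _ (by omega)) (by omega)
  have g5 : K * (W * W) ≤ K * (p * p * (W * W)) := Nat.mul_le_mul_left _ g2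
  obtain ⟨a1, ha1⟩ : ∃ a1, a1 = n * n := ⟨_, rfl⟩
  obtain ⟨a2, ha2⟩ : ∃ a2, a2 = p * p * (W * W) := ⟨_, rfl⟩
  obtain ⟨a3, ha3⟩ : ∃ a3, a3 = (t + 1) * (n * n) := ⟨_, rfl⟩
  obtain ⟨a4, ha4⟩ : ∃ a4, a4 = p * n * (U + W) := ⟨_, rfl⟩
  obtain ⟨a5, ha5⟩ : ∃ a5, a5 = (p - 1) * n * U := ⟨_, rfl⟩
  rw [← ha3, ← ha1] at g1
  rw [← ha1] at g3
  rw [← ha5, ← ha4] at g4
  rw [← ha2] at g5
  rw [← ha3, ← ha1, ← ha5, ← ha4, ← ha2]
  have e : (10000000000 + K) * (T + a4 + a3 + a2 + N + s0 + 1)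
    = 10000000000 * (T + a4 + a3 + a2 + N + s0 + 1) + K * a2
      + K * (T + a4 + a3 + N + s0 + 1) := by ring
  rw [e]
  omega

theorem hasProgramD {A : Machine} (hA : Multiplies A) {MU : Prog RD Bool} {K : ℕ}
    (hMU : MuSpec MU K) (s0 : ℕ) : HasProgramD A CD s0 := by
  classical
  refine ⟨RD ⊕ Sim.AReg A, Bool ⊕ Sim.ASym A, Fintype.ofFinite _, inferInstance, inferInstance,
    mainD A MU s0, Sum.inl .inp, Sum.inl .outp, Sum.inl,
    Sum.elim id (fun _ => false), costMD A K s0, fun _ => rfl, ?_, ?_⟩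
  · exact ⟨10000000000 + K, fun N hN => costMD_le A K s0 N hN⟩
  · intro w hw
    obtain ⟨v', h1, h2⟩ := mainD_runs hA hMU s0 w hw
    refine ⟨liftStore v'.st fun _ => [], ?_, ?_⟩
    · rw [init_lift]
      have e : (update (fun _ => [] : Store RD Bool) RD.inp w.reverse)
          = ({ inp := w.reverse } : DV).st := by
        funext r; cases r <;> rfl
      rw [e]
      exact h2
    · show (v'.outp).map Sum.inl = _
      rw [h1]

end H51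

/-- **Stage 2.** -/
theorem transferD_of_mu {MU : Prog RD Bool} {K : ℕ} (hMU : H51.MuSpec MU K) :
    TransferD H51.CD :=
  transferD_of_programs (by unfold H51.CD; norm_num) fun _ hA s => H51.hasProgramD hA hMU s

end Vale.Agent.P338
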