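import Vale.Agent.P338.Defs
import Vale.Agent.P338.Lang

/-!
# P338: from tape automata to machines

`TA R Γ` is a tape automaton working on the tapes `R`, each of which holds a stack over `Γ`
(cell `0` holds the bottom marker, the head is on the top symbol).  `TA.machine` turns it into a
multitape Turing machine in the sense of `Defs.lean`: the machine writes the bottom markers, loads
its input word (bits) onto the stack `rin` (so that this stack is the reversed input), runs the
automaton, and then pops the stack `rout` onto its output tape.
-/

namespace Vale.Agent.P338.H51

open Machine (written)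

/-- Tapes: position of the head and contents. -/
abbrev TC (R Γ : Type) := R → ℕ × (ℕ → Symb (Option Γ))

/-- The symbols under the heads. -/
def TC.reads {R Γ : Type} (T : TC R Γ) : R → Symb (Option Γ) := fun r => (T r).2 (T r).1

/-- Effect of an action (one symbol and one move for each tape). -/
def TC.act {R Γ : Type} (a : R → Symb (Option Γ) × Move) (T : TC R Γ) : TC R Γ := fun r =>
  ((a r).2.app (T r).1, Function.update (T r).2 (T r).1 (a r).1)

/-- Tape automata; the transition function gives the next state (`none` = exit) and an action,
which is performed in both cases. -/
structure TA (R Γ : Type) : Type 1 where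
  /-- states -/
  X : Type
  /-- finitely many states -/
  fin : Finite X
  /-- start state -/
  start : X
  /-- transition function -/
  δ : X → (R → Symb (Option Γ)) → Option X × (R → Symb (Option Γ) × Move)

/-- From state `u` and tapes `T` the automaton exits with tapes `T'` after exactly `n` steps. -/
inductive TA.ExitsIn {R Γ : Type} (A : TA R Γ) : A.X → TC R Γ → TC R Γ → ℕ → Prop
  | last {u : A.X} {T : TC R Γ} {a : R → Symb (Option Γ) × Move} :
      A.δ u T.reads = (none, a) → TA.ExitsIn A u T (T.act a) 1
  | step {u v : A.X} {T T' : TC R Γ} {a : R → Symb (Option Γ) × Move} {n : ℕ} :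
      A.δ u T.reads = (some v, a) → TA.ExitsIn A v (T.act a) T' n → TA.ExitsIn A u T T' (n + 1)

/-- The word on the tape which holds a stack. -/
def encL {Γ : Type} (l : List Γ) : List (Symb (Option Γ)) :=
  Symb.extra none :: l.reverse.map fun a => Symb.extra (some a)

/-- The tapes which hold the stacks of a store. -/
def encS {R Γ : Type} (s : Store R Γ) : TC R Γ := fun r => ((s r).length, written (encL (s r)))

section written

variable {E : Type}

theorem written_append_length (u : List (Symb E)) (x : Symb E) : written (u ++ [x]) u.length = x := by
  simp [written]

theorem update_written (u : List (Symb E)) (x : Symb E) :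
    Function.update (written u) u.length x = written (u ++ [x]) := by
  funext j
  by_cases h : j = u.length
  · subst h; simp [written]
  · rw [Function.update_of_ne h]
    rcases Nat.lt_or_gt_of_ne h with h | h
    · simp [written, List.getD_eq_getElem?_getD, List.getElem?_append_left h]
    · simp only [written, List.getD_eq_getElem?_getD]
      rw [List.getElem?_eq_none (by omega), List.getElem?_eq_none (by simp; omega)]

theorem update_written' (u : List (Symb E)) (x y : Symb E) :
    Function.update (written (u ++ [x])) u.length y = written (u ++ [y]) := by
  rw [← update_written, ← update_written]; simp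

theorem written_append_blank (u : List (Symb E)) : written (u ++ [Symb.blank]) = written u := by
  funext j
  by_cases h : j < u.length
  · simp [written, List.getD_eq_getElem?_getD, List.getElem?_append_left h]
  · simp only [written, List.getD_eq_getElem?_getD]
    rw [List.getElem?_eq_none (l := u) (by omega)]
    by_cases h' : j = u.length
    · subst h'; simp
    · rw [List.getElem?_eq_none (by simp; omega)]

theorem written_length (u : List (Symb E)) : written u u.length = Symb.blank := by
  simp [written]

end written

theorem encL_cons {Γ : Type} (a : Γ) (l : List Γ) :
    encL (a :: l) = encL l ++ [Symb.extra (some a)] := by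
  simp [encL]

theorem encL_length {Γ : Type} (l : List Γ) : (encL l).length = l.length + 1 := by
  simp [encL]

/-- the symbol under the head of the tape of a stack -/
theorem written_encL {Γ : Type} (l : List Γ) : written (encL l) l.length = Symb.extra l.head? := by
  cases l with
  | nil => simp [encL, written]
  | cons a l =>
    rw [encL_cons]
    have := written_append_length (encL l) (Symb.extra (some a))
    rw [encL_length] at this
    simpa using this

/-! ### The machine -/

/-- Control states of the machine. -/
inductive St (X : Type) : Type
  | mark : St X
  | load : St X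
  | put (b : Bool) : St X
  | run (x : X) : St X
  | unl : St X

instance {X : Type} [Finite X] : Finite (St X) := by
  refine Finite.of_surjective
    (fun x : Option (Option (Option (Bool ⊕ X))) => match x with
      | none => St.mark
      | some none => St.load
      | some (some none) => St.unl
      | some (some (some (Sum.inl b))) => St.put b
      | some (some (some (Sum.inr x))) => St.run x) ?_
  rintro (_ | _ | b | x | _)
  · exact ⟨none, rfl⟩
  · exact ⟨some none, rfl⟩
  · exact ⟨some (some (some (Sum.inl b))), rfl⟩
  · exact ⟨some (some (some (Sum.inr x))), rfl⟩
  · exact ⟨some (some none), rfl⟩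

section machine

variable {R Γ : Type} [Fintype R] [DecidableEq R] (A : TA R Γ) (rin rout : R) (inj : Bool → Γ)
  (dec : Γ → Bool)

/-- Tape `none` is the input tape, tape `some none` the output tape, tape `some (some r)` holds
the stack `r`. -/
def dl : St A.X → (Option (Option R) → Symb (Option Γ)) →
    Option (St A.X × (Option (Option R) → Symb (Option Γ) × Move))
  | St.mark, x => some (St.load, fun i => match i with
      | some (some _) => (Symb.extra none, Move.stay)
      | i => (x i, Move.stay))
  | St.load, x => match x none with
      | Symb.bit b => some (St.put b, fun i =>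
          if i = none ∨ i = some (some rin) then (x i, Move.right) else (x i, Move.stay))
      | _ => some (St.run A.start, fun i => (x i, Move.stay))
  | St.put b, x => some (St.load, fun i =>
      if i = some (some rin) then (Symb.extra (some (inj b)), Move.stay) else (x i, Move.stay))
  | St.run u, x => some
      ((match (A.δ u fun r => x (some (some r))).1 with
        | none => St.unl
        | some v => St.run v),
       fun i => match i with
        | some (some r) => (A.δ u fun r => x (some (some r))).2 r
        | i => (x i, Move.stay))
  | St.unl, x => match x (some (some rout)) with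
      | Symb.extra (some g) => some (St.unl, fun i =>
          if i = some none then (Symb.bit (dec g), Move.right)
          else if i = some (some rout) then (Symb.blank, Move.left) else (x i, Move.stay))
      | _ => none

/-- numbering of the tapes -/
noncomputable def ix (R : Type) [Fintype R] : Fin (Fintype.card R + 1 + 1) ≃ Option (Option R) :=
  (finSuccEquiv _).trans (Equiv.optionCongr
    ((finSuccEquiv _).trans (Equiv.optionCongr (Fintype.equivFin R).symm)))

omit [DecidableEq R] in
theorem ix_zero : ix R 0 = none := by simp [ix]

omit [DecidableEq R] in
theorem ix_eq_none {i : Fin (Fintype.card R + 1 + 1)} : ix R i = none ↔ i = 0 := by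
  rw [← ix_zero (R := R), Equiv.apply_eq_iff_eq]

variable [Finite Γ]

/-- The machine. -/
noncomputable def machine : Machine where
  k := Fintype.card R + 1
  out := (ix R).symm (some none)
  Q := St A.X
  finQ := by have := A.fin; infer_instance
  E := Option Γ
  finE := inferInstance
  start := St.mark
  δ := fun q r => (dl A rin rout inj dec q fun j => r ((ix R).symm j)).map fun p =>
    (p.1, fun i => p.2 (ix R i))

/-- Configuration of the machine with tapes numbered by `Option (Option R)`. -/
noncomputable def cfg (q : St A.X) (T : Option (Option R) → ℕ × (ℕ → Symb (Option Γ))) :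
    (machine A rin rout inj dec).Cfg :=
  { state := q
    head := fun i => (T (ix R i)).1
    tape := fun i => (T (ix R i)).2 }

/-- effect of an action -/
def actO (a : Option (Option R) → Symb (Option Γ) × Move)
    (T : Option (Option R) → ℕ × (ℕ → Symb (Option Γ))) :
    Option (Option R) → ℕ × (ℕ → Symb (Option Γ)) := fun i =>
  ((a i).2.app (T i).1, Function.update (T i).2 (T i).1 (a i).1)

theorem step_cfg (q : St A.X) (T : Option (Option R) → ℕ × (ℕ → Symb (Option Γ))) :
    (machine A rin rout inj dec).step (cfg A rin rout inj dec q T) =
      (dl A rin rout inj dec q fun j => (T j).2 (T j).1).map fun p =>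
        cfg A rin rout inj dec p.1 (actO p.2 T) := by
  simp only [Machine.step, machine, cfg, Option.map_map]
  simp only [Equiv.apply_symm_apply]
  rfl

/-- The tapes: input word `w` with head at `j`, output word `z` (head behind it), stack tapes
`T`. -/
def tps (w : List (Symb (Option Γ))) (j : ℕ) (z : List Bool) (T : TC R Γ) :
    Option (Option R) → ℕ × (ℕ → Symb (Option Γ))
  | none => (j, written w)
  | some none => (z.length, written (z.map Symb.bit))
  | some (some r) => T r

end machine

/-! ### Reachability -/

/-- reachability in exactly `n` steps -/
def Rch (M : Machine) (n : ℕ) (c c' : M.Cfg) : Prop :=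
  ((fun o : Option M.Cfg => o.bind M.step)^[n]) (some c) = some c'

theorem Rch.refl {M : Machine} (c : M.Cfg) : Rch M 0 c c := rfl

theorem Rch.one {M : Machine} {c c' : M.Cfg} (h : M.step c = some c') : Rch M 1 c c' := by
  simp [Rch, h]

theorem Rch.trans {M : Machine} {m n : ℕ} {c c' c'' : M.Cfg} (h : Rch M m c c')
    (h' : Rch M n c' c'') : Rch M (m + n) c c'' := by
  unfold Rch at *
  rw [Nat.add_comm, Function.iterate_add_apply, h, h']

theorem Rch.cast {M : Machine} {m n : ℕ} {c c' d' : M.Cfg} (h : Rch M m c c') (hn : m = n)
    (hc : c' = d') : Rch M n c d' := by
  subst hn; subst hc; exact h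

theorem after_eq_iterate (M : Machine) (w : List (Symb M.E)) (n : ℕ) :
    M.after w n = ((fun o : Option M.Cfg => o.bind M.step)^[n]) (some (M.init w)) := by
  induction n with
  | zero => rfl
  | succ n ih => rw [Function.iterate_succ_apply', ← ih]; rfl

section phases

variable {R Γ : Type} [Fintype R] [DecidableEq R] [Finite Γ] (A : TA R Γ) (rin rout : R)
  (inj : Bool → Γ) (dec : Γ → Bool)

theorem init_eq (w : List (Symb (Option Γ))) :
    (machine A rin rout inj dec).init w = cfg A rin rout inj dec St.mark
      (fun i => (0, if i = none then written w else written [])) := by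
  simp only [Machine.init, cfg]
  congr 1
  funext i
  by_cases h : i = 0
  · subst h; exact ((if_pos rfl).trans (if_pos (ix_zero (R := R))).symm)
  · exact ((if_neg h).trans (if_neg (fun h' => h (ix_eq_none.1 h'))).symm)

theorem mark_step (w : List (Symb (Option Γ))) :
    Rch _ 1 ((machine A rin rout inj dec).init w)
      (cfg A rin rout inj dec St.load (tps w 0 [] (encS fun _ => []))) := by
  apply Rch.one
  rw [init_eq, step_cfg]
  simp only [dl, Option.map_some]
  congr 2
  funext i
  rcases i with _ | _ | r
  · simp [actO, tps, Move.app]
  · simp [actO, tps, Move.app]
  · simp only [actO, tps, Move.app, encS]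
    simp only [reduceCtorEq, if_false, List.length_nil]
    congr 1
    exact update_written [] (Symb.extra none)

/-- the store in which the reversed word `v` has been loaded -/
def ld (rin : R) (inj : Bool → Γ) (v : List Bool) : Store R Γ :=
  Function.update (fun _ => []) rin ((v.map inj).reverse)

omit [Fintype R] [Finite Γ] in
theorem ld_nil : ld rin inj [] = fun _ => [] := by
  simp [ld]

theorem load_step (v₁ : List Bool) (b : Bool) (v₂ : List Bool) :
    Rch _ 2 (cfg A rin rout inj dec St.load
        (tps ((v₁ ++ b :: v₂).map Symb.bit) v₁.length [] (encS (ld rin inj v₁))))
      (cfg A rin rout inj dec St.load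
        (tps ((v₁ ++ b :: v₂).map Symb.bit) (v₁ ++ [b]).length [] (encS (ld rin inj (v₁ ++ [b]))))) := by
  have h1 : Rch _ 1 (cfg A rin rout inj dec St.load
        (tps ((v₁ ++ b :: v₂).map Symb.bit) v₁.length [] (encS (ld rin inj v₁))))
      (cfg A rin rout inj dec (St.put b)
        (tps ((v₁ ++ b :: v₂).map Symb.bit) (v₁ ++ [b]).length []
          (fun r => if r = rin then (v₁.length + 1, written (encL ((v₁.map inj).reverse)))
            else (0, written (encL []))))) := by
    apply Rch.one
    rw [step_cfg]
    have hr : written ((v₁ ++ b :: v₂).map (Symb.bit (E := Option Γ))) v₁.length = Symb.bit b := by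
      simp [written]
    simp only [dl, tps, hr, Option.map_some]
    congr 2
    funext i
    rcases i with _ | _ | r
    · simp [actO, tps, Move.app]
    · simp [actO, tps, Move.app]
    · by_cases h : r = rin
      · subst h
        simp [actO, tps, Move.app, encS, ld]
      · simp [actO, tps, Move.app, encS, ld, h]
  refine (h1.trans (Rch.one ?_)).cast rfl rfl
  rw [step_cfg]
  simp only [dl, Option.map_some]
  congr 2
  funext i
  rcases i with _ | _ | r
  · simp [actO, tps, Move.app]
  · simp [actO, tps, Move.app]
  · by_cases h : r = rin
    · subst h
      have h3 := update_written (encL ((v₁.map inj).reverse)) (Symb.extra (some (inj b)))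
      rw [encL_length] at h3
      simp only [List.length_reverse, List.length_map] at h3
      simp only [actO, tps, Move.app, encS, ld, if_true, Function.update_self, h3]
      simp [encL_cons]
    · simp [actO, tps, Move.app, encS, ld, h]

theorem load_all (v₂ v₁ : List Bool) :
    Rch _ (2 * v₂.length + 1) (cfg A rin rout inj dec St.load
        (tps ((v₁ ++ v₂).map Symb.bit) v₁.length [] (encS (ld rin inj v₁))))
      (cfg A rin rout inj dec (St.run A.start)
        (tps ((v₁ ++ v₂).map Symb.bit) (v₁ ++ v₂).length [] (encS (ld rin inj (v₁ ++ v₂))))) := by
  induction v₂ generalizing v₁ with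
  | nil =>
    apply Rch.one
    rw [step_cfg]
    have hr : written ((v₁ ++ []).map (Symb.bit (E := Option Γ))) v₁.length = Symb.blank := by
      simp [written]
    simp only [dl, tps, hr, Option.map_some]
    congr 2
    funext i
    rcases i with _ | _ | r
    · simp [actO, tps, Move.app]
    · simp [actO, tps, Move.app]
    · simp [actO, tps, Move.app]
  | cons b v₂ ih =>
    have h := ih (v₁ ++ [b])
    simp only [List.append_assoc, List.singleton_append] at h
    exact ((load_step A rin rout inj dec v₁ b v₂).trans
      (by simpa [List.append_assoc] using h)).cast (by simp; omega) rfl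

theorem run_all {w : List (Symb (Option Γ))} {j : ℕ} {z : List Bool} {u : A.X} {T T' : TC R Γ}
    {n : ℕ} (h : A.ExitsIn u T T' n) :
    Rch _ n (cfg A rin rout inj dec (St.run u) (tps w j z T))
      (cfg A rin rout inj dec St.unl (tps w j z T')) := by
  induction h with
  | @last u T a h =>
    apply Rch.one
    rw [step_cfg]
    have h' : (A.δ u fun r => (T r).2 (T r).1) = (none, a) := h
    simp only [dl, tps, h', Option.map_some]
    congr 2
    funext i
    rcases i with _ | _ | r
    · simp [actO, tps, Move.app]
    · simp [actO, tps, Move.app]
    · simp [actO, tps, TC.act]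
  | @step u v T T' a n h _ ih =>
    have h' : (A.δ u fun r => (T r).2 (T r).1) = (some v, a) := h
    refine ((Rch.one ?_).trans ih).cast (by omega) rfl
    rw [step_cfg]
    simp only [dl, tps, h', Option.map_some]
    congr 2
    funext i
    rcases i with _ | _ | r
    · simp [actO, tps, Move.app]
    · simp [actO, tps, Move.app]
    · simp [actO, tps, TC.act]

theorem unl_all {w : List (Symb (Option Γ))} {j : ℕ} {z : List Bool} {T : TC R Γ} (l : List Γ)
    (hl : T rout = (l.length, written (encL l))) :
    ∃ T' : TC R Γ, Rch _ l.length (cfg A rin rout inj dec St.unl (tps w j z T))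
      (cfg A rin rout inj dec St.unl (tps w j (z ++ l.map dec) T')) ∧
      T' rout = (0, written (encL [])) := by
  induction l generalizing z T with
  | nil => exact ⟨T, by simpa using Rch.refl _, hl⟩
  | cons g l ih =>
    have h1 : Rch _ 1 (cfg A rin rout inj dec St.unl (tps w j z T))
        (cfg A rin rout inj dec St.unl (tps w j (z ++ [dec g])
          (Function.update T rout (l.length, written (encL l))))) := by
      apply Rch.one
      rw [step_cfg]
      have hr : (T rout).2 (T rout).1 = Symb.extra (some g) := by
        rw [hl]; simpa using written_encL (g :: l)
      simp only [dl, tps, hr, Option.map_some]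
      congr 2
      funext i
      rcases i with _ | _ | r
      · simp [actO, tps, Move.app]
      · have h3 := update_written (z.map (Symb.bit (E := Option Γ))) (Symb.bit (dec g))
        simp only [List.length_map] at h3
        simp [actO, tps, Move.app, h3]
      · by_cases h : r = rout
        · subst h
          have h3 := update_written' (encL l) (Symb.extra (some g)) Symb.blank
          rw [encL_length, written_append_blank, ← encL_cons] at h3
          simp [actO, tps, Move.app, hl, h3]
        · simp [actO, tps, Move.app, h]
    obtain ⟨T', h2, h3⟩ := ih (z := z ++ [dec g])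
      (T := Function.update T rout (l.length, written (encL l))) (by simp)
    exact ⟨T', (h1.trans h2).cast (by simp; omega) (by simp), h3⟩

theorem unl_halt {w : List (Symb (Option Γ))} {j : ℕ} {z : List Bool} {T : TC R Γ}
    (hl : T rout = (0, written (encL []))) :
    (machine A rin rout inj dec).step (cfg A rin rout inj dec St.unl (tps w j z T)) = none := by
  rw [step_cfg]
  have hr : (T rout).2 (T rout).1 = Symb.extra none := by
    rw [hl]; simpa using written_encL ([] : List Γ)
  simp only [dl, tps, hr, Option.map_none]

/-- **The machine computes what the automaton computes.** -/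
theorem machine_haltsAt (v : List Bool) {n : ℕ} {T' : TC R Γ}
    (h : A.ExitsIn A.start (encS (Function.update (fun _ => []) rin ((v.map inj).reverse))) T' n)
    (l : List Γ) (hl : T' rout = (l.length, written (encL l))) :
    ∃ c, (machine A rin rout inj dec).HaltsAt (v.map Symb.bit) (2 * v.length + 2 + n + l.length) c ∧
      c.tape (machine A rin rout inj dec).out = written ((l.map dec).map Symb.bit) := by
  have h1 := mark_step A rin rout inj dec (v.map Symb.bit)
  have h2 := load_all A rin rout inj dec v []
  rw [ld_nil] at h2
  simp only [List.nil_append, List.length_nil] at h2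
  have h3 := run_all A rin rout inj dec (w := v.map Symb.bit) (j := v.length) (z := []) h
  obtain ⟨T'', h4, h5⟩ := unl_all A rin rout inj dec (w := v.map Symb.bit) (j := v.length)
    (z := []) l hl
  refine ⟨cfg A rin rout inj dec St.unl (tps (v.map Symb.bit) v.length ([] ++ l.map dec) T''),
    ⟨?_, unl_halt A rin rout inj dec h5⟩, ?_⟩
  · rw [after_eq_iterate]
    exact (((h1.trans h2).trans h3).trans h4).cast (by omega) rfl
  · simp [cfg, machine, tps]

end phases

end Vale.Agent.P338.H51
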